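import Crest.Agent.R269.D.D2Reg

/-!
# Row 269, block D2: Perron (statements FROZEN; recipe in Blueprint.lean)
-/

set_option autoImplicit false
set_option linter.unusedSectionVars false
set_option linter.unusedVariables false

noncomputable section

namespace Crest.Agent.R269

open Set Metric Filter Topology MeasureTheory Matrix
open Crest.AlgGeometry.ProjEmb
open scoped InnerProductSpace ContDiff

namespace D2

variable {N n : ℕ} {X : Geo N n}

/-- The Perron envelope. -/
def env (X : Geo N n) (a b : ℝ) (y : Cn (N + 1)) : ℝ := ⨅ u : {u // X.Sup a b u}, u.1 y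

instance (X : Geo N n) (a b : ℝ) : Nonempty {u // X.Sup a b u} :=
  let ⟨M, hM⟩ := sup_const X a b; ⟨⟨_, hM⟩⟩

theorem adm_continuousAt {u : Cn (N + 1) → ℝ} (hu : X.Adm u) {y : Cn (N + 1)} (hy : y ∈ X.Y) : ContinuousAt u y :=
  (hu.1 y hy.1).continuousAt

section

variable {a b C : ℝ} (h : ∀ u, X.Sup a b u → ∀ y ∈ X.Y, -C ≤ u y)
include h

theorem env_bdd {y : Cn (N + 1)} (hy : y ∈ X.Y) : BddBelow (range fun u : {u // X.Sup a b u} => u.1 y) :=
  ⟨-C, by rintro _ ⟨u, rfl⟩; exact h u.1 u.2 y hy⟩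

theorem env_le {u : Cn (N + 1) → ℝ} (hu : X.Sup a b u) {y : Cn (N + 1)} (hy : y ∈ X.Y) : env X a b y ≤ u y :=
  ciInf_le (env_bdd h hy) ⟨u, hu⟩

theorem le_env {y : Cn (N + 1)} (hy : y ∈ X.Y) : -C ≤ env X a b y :=
  le_ciInf fun u => h u.1 u.2 y hy

omit h in
theorem env_hom : X.Hom0 (env X a b) := by
  intro y hy t ht
  unfold env
  congr 1
  funext u
  exact u.2.1.2 y hy t ht

theorem env_usc : UpperSemicontinuousOn (env X a b) X.Y :=
  upperSemicontinuousOn_ciInf (fun y hy => env_bdd h hy) fun u =>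
    ContinuousOn.upperSemicontinuousOn fun y hy => (adm_continuousAt u.2.1 hy).continuousWithinAt

omit h in
/-- One supersolution below `g + η` on a compact set on which the envelope is below `g`. -/
theorem exists_sup_le {K : Set (Cn (N + 1))} (hK : IsCompact K) (hKY : K ⊆ X.Y) {g : Cn (N + 1) → ℝ}
    (hg : ∀ x ∈ K, ContinuousAt g x) (hle : ∀ x ∈ K, env X a b x ≤ g x) {η : ℝ} (hη : 0 < η) :
    ∃ u, X.Sup a b u ∧ ∀ x ∈ K, u x < g x + η := by
  have key : ∃ η' < η, ∃ u, X.Sup a b u ∧ ∀ x ∈ K, x ∈ X.Y → u x ≤ g x + η' := by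
    refine hK.induction_on (p := fun s => ∃ η' < η, ∃ u, X.Sup a b u ∧ ∀ x ∈ s, x ∈ X.Y → u x ≤ g x + η') ?_ ?_ ?_ ?_
    · obtain ⟨M, hM⟩ := sup_const X a b
      exact ⟨0, hη, _, hM, by simp⟩
    · rintro s t hst ⟨η', h1, u, hu, h2⟩
      exact ⟨η', h1, u, hu, fun x hx => h2 x (hst hx)⟩
    · rintro s t ⟨η₁, h1, u₁, hu₁, h2⟩ ⟨η₂, h3, u₂, hu₂, h4⟩
      have hm : max η₁ η₂ < η := max_lt h1 h3
      obtain ⟨u, hu, hle'⟩ := regmin (X := X) (a := a) (b := b) (u₁ := u₁) (u₂ := u₂)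
        ⟨hu₁.1, hu₂.1, fun y hy _ => hu₁.2 y hy, fun y hy _ => hu₂.2 y hy⟩ (ε := (η - max η₁ η₂) / 2) (by linarith)
      refine ⟨(η + max η₁ η₂) / 2, by linarith, u, hu, ?_⟩
      rintro x (hx | hx) hxY
      · have := h2 x hx hxY; have := (hle' x hxY).1; have := le_max_left η₁ η₂; linarith
      · have := h4 x hx hxY; have := (hle' x hxY).2; have := le_max_right η₁ η₂; linarith
    · intro x hx
      have hlt : env X a b x < g x + η / 2 := by have := hle x hx; linarith
      obtain ⟨u, hu⟩ := exists_lt_of_ciInf_lt hlt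
      have hev : ∀ᶠ z in 𝓝 x, u.1 z < g z + η / 2 :=
        (adm_continuousAt u.2.1 (hKY hx)).eventually_lt ((hg x hx).add continuousAt_const) hu
      exact ⟨_, mem_nhdsWithin_of_mem_nhds hev, η / 2, by linarith, u.1, u.2, fun z hz _ => le_of_lt hz⟩
  obtain ⟨η', h1, u, hu, h2⟩ := key
  exact ⟨u, hu, fun x hx => by have := h2 x hx (hKY hx); linarith⟩

theorem env_test {y : Cn (N + 1)} (hy : y ∈ X.Y) {q : Cn (N + 1) → ℝ} (hq : ContDiffAt ℝ 2 q y)
    (hq0 : ∀ x, ∀ t : ℂ, t ≠ 0 → q (t • x) = q x) (hmax : IsLocalMaxOn (fun x => env X a b x - q x) X.Y y) :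
    X.Good a b q y (Real.exp (-C)) := by
  by_contra hng
  have hy0 : y ≠ 0 := hy.1
  set k : ℝ := env X a b y - q y with hk
  have hqH : X.Hom0 q := fun x _ t ht => hq0 x t ht
  -- margin near `y`
  have hng' : ¬ X.Good a b q y (Real.exp (q y + k - 0)) := fun hg =>
    hng (good_mono hg (fun _ _ => le_rfl) (Real.exp_le_exp.2 (by have := le_env h hy; linarith)))
  have hc : ContinuousAt (fun p : ℝ × Cn (N + 1) => Real.exp (q p.2 + k - p.1)) (0, y) := by
    have h1 : ContinuousAt (fun p : ℝ × Cn (N + 1) => q p.2) (0, y) :=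
      ContinuousAt.comp (g := q) hq.continuousAt continuousAt_snd
    exact Real.continuous_exp.continuousAt.comp ((h1.add continuousAt_const).sub continuousAt_fst)
  have hev := eventually_not_good (a := a) (b := b) hy hq hc hng'
  rw [nhds_prod_eq] at hev
  obtain ⟨β, hβ, hβ0⟩ : ∃ β : ℝ, (∀ᶠ x in 𝓝 y, x ∈ X.Y → ¬ X.Good a (b + β) q x (Real.exp (q x + k - β))) ∧ 0 < β := by
    have h1 := hev.curry
    have h2 : ∀ᶠ β in 𝓝[>] (0 : ℝ), _ := mem_nhdsWithin_of_mem_nhds h1
    exact (h2.and self_mem_nhdsWithin).exists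
  have hqe : ∀ᶠ x in 𝓝 y, ContDiffAt ℝ 2 q x := hq.eventually (by simp)
  have hme : ∀ᶠ x in 𝓝 y, x ∈ X.Y → env X a b x - q x ≤ k := eventually_nhdsWithin_iff.1 hmax
  have hqs : ∀ x, ∀ t : ℂ, t ≠ 0 → ContDiffAt ℝ 2 q (t • x) → ContDiffAt ℝ 2 q x := by
    intro x t ht hx
    have : q = fun z => q (t • z) := funext fun z => (hq0 z t ht).symm
    rw [this]
    exact hx.comp x (f := fun z : Cn (N + 1) => t • z) (contDiffAt_id.const_smul t)
  obtain ⟨r, hr, hP⟩ := cone_nhds hy0 (P := fun x => ContDiffAt ℝ 2 q x ∧ (x ∈ X.Y → env X a b x - q x ≤ k) ∧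
      (x ∈ X.Y → ¬ X.Good a (b + β) q x (Real.exp (q x + k - β)))) (hqe.and (hme.and hβ)) (by
    rintro x t ht ⟨h1, h2, h3⟩
    refine ⟨hqs x t ht h1, fun hx => ?_, fun hx hg => ?_⟩
    · have := h2 (X.smul_mem_Y hx ht)
      rwa [env_hom x hx t ht, hq0 x t ht] at this
    · apply h3 (X.smul_mem_Y hx ht)
      rw [hq0 x t ht]
      have hx' : t⁻¹ • t • x = x := by rw [smul_smul, inv_mul_cancel₀ ht, one_smul]
      refine good_smul (X.smul_mem_Y hx ht) (inv_ne_zero ht) h1 ?_ hqH ?_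
      · rw [hx']; exact hqs x t ht h1
      · rw [hx']; exact hg)
  -- the bump
  have hd : X.Adm (fsd y) := ⟨fun x hx => contDiffAt_fsd hy0 hx, fun x _ t ht => fsd_smul y x ht⟩
  obtain ⟨D, hD0, hD⟩ := X.eta_abs_le 0 0 hd
  obtain ⟨ε, hε, hεD, hεr⟩ : ∃ ε : ℝ, 0 < ε ∧ ε * D ≤ β ∧ ε * r ≤ β := by
    refine ⟨β / (D + r), by positivity, ?_, ?_⟩
    · rw [div_mul_eq_mul_div, div_le_iff₀ (by positivity)]; nlinarith
    · rw [div_mul_eq_mul_div, div_le_iff₀ (by positivity)]; nlinarith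
  have hεr0 : 0 < ε * r := by positivity
  set q' : Cn (N + 1) → ℝ := fun x => q x + (ε * fsd y x + (k - ε * r / 8)) with hq'
  have hq'c : ∀ x, x ≠ 0 → fsd y x < r → ContDiffAt ℝ 2 q' x := fun x hx hxr =>
    (hP x hx hxr).1.add ((contDiffAt_const.mul (hd.1 x hx)).add contDiffAt_const)
  have hq'n : ∀ x ∈ X.Y, fsd y x < r → ¬ X.Good a b q' x (Real.exp (q' x)) := by
    intro x hx hxr hg
    refine (hP x hx.1 hxr).2.2 hx (good_mono hg (fun v hv => ?_) (Real.exp_le_exp.2 ?_))
    · rw [eta_add_b]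
      have h1 := hD x hx v hv
      have h2 : levi q' x v = levi q x v + ε * levi (fsd y) x v := by
        rw [hq', levi_add (hP x hx.1 hxr).1 ((contDiffAt_const.mul (hd.1 x hx.1)).add contDiffAt_const),
          levi_add (contDiffAt_const.mul (hd.1 x hx.1)) contDiffAt_const, levi_const, levi_const_mul (hd.1 x hx.1)]
        ring
      simp only [Geo.eta, zero_mul, zero_add] at h1 ⊢
      rw [h2]
      have h3 := (abs_le.1 h1).2
      have h4 := om_nonneg x v
      nlinarith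
    · have := fsd_nonneg y x
      simp only [hq']
      nlinarith
  -- the shell
  set K : Set (Cn (N + 1)) := (X.Y ∩ sphere 0 1) ∩ {x | r / 4 ≤ fsd y x ∧ fsd y x ≤ r / 2} with hK
  have hKc : IsCompact K := by
    refine X.isCompact_Y1.of_isClosed_subset ?_ inter_subset_left
    have hco : ContinuousOn (fsd y) (X.Y ∩ sphere 0 1) := fun x hx => (adm_continuousAt hd hx.1).continuousWithinAt
    exact hco.preimage_isClosed_of_isClosed X.isCompact_Y1.isClosed (isClosed_Icc (a := r / 4) (b := r / 2))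
  obtain ⟨u, hu, huK⟩ := exists_sup_le (a := a) (b := b) hKc (fun x hx => hx.1.1) (g := fun x => q x + k)
    (fun x hx => ((hP x hx.1.1.1 (by have := hx.2.2; linarith)).1.continuousAt).add continuousAt_const)
    (fun x hx => by have := (hP x hx.1.1.1 (by have := hx.2.2; linarith)).2.1 hx.1.1; linarith)
    (η := ε * r / 8) (by positivity)
  have huq' : ∀ x ∈ X.Y, r / 4 ≤ fsd y x → fsd y x ≤ r / 2 → u x < q' x := by
    intro x hx h1 h2
    obtain ⟨z, hz, t, ht, rfl⟩ := exists_unit hx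
    rw [fsd_smul y z ht] at h1 h2
    have h3 := huK z ⟨hz, h1, h2⟩
    simp only [hq']
    rw [hu.1.2 z hz.1 t ht, hq0 z t ht, fsd_smul y z ht]
    nlinarith
  obtain ⟨M, hM⟩ := hu.1.bdd
  set χ : Cn (N + 1) → ℝ := fun x => Real.smoothTransition ((r / 2 - fsd y x) / (r / 4)) with hχ
  have hχ1 : ∀ x, fsd y x ≤ r / 4 → χ x = 1 := fun x hx =>
    Real.smoothTransition.one_of_one_le (by rw [le_div_iff₀ (by positivity)]; linarith)
  have hχ0 : ∀ x, r / 2 ≤ fsd y x → χ x = 0 := fun x hx =>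
    Real.smoothTransition.zero_of_nonpos (div_nonpos_of_nonpos_of_nonneg (by linarith) (by positivity))
  have hχc : ∀ x, x ≠ 0 → ContDiffAt ℝ 2 χ x := fun x hx =>
    Real.smoothTransition.contDiffAt.comp x ((contDiffAt_const.sub (hd.1 x hx)).div_const _)
  set g : Cn (N + 1) → ℝ := fun x => χ x * q' x + (1 - χ x) * (M + 1) with hg
  have hgA : X.Adm g := by
    refine ⟨fun x hx => ?_, fun x hx t ht => by simp only [hg, hχ, hq', fsd_smul y x ht, hq0 x t ht]⟩
    by_cases hxr : fsd y x < r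
    · exact ((hχc x hx).mul (hq'c x hx hxr)).add ((contDiffAt_const.sub (hχc x hx)).mul contDiffAt_const)
    · have h1 : ∀ᶠ z in 𝓝 x, r / 2 < fsd y z :=
        continuousAt_const.eventually_lt (hd.1 x hx).continuousAt (by push Not at hxr; linarith)
      refine (contDiffAt_const (c := M + 1)).congr_of_eventuallyEq ?_
      filter_upwards [h1] with z hz
      simp [hg, hχ0 z hz.le]
  have hpair : Pair X a b u g := by
    refine ⟨hu.1, hgA, fun x hx _ => hu.2 x hx, fun x hx hle => ?_⟩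
    have hxM : u x < M + 1 := by have := (abs_le.1 (hM x hx)).2; linarith
    have hlt : fsd y x < r / 4 := by
      by_contra hge
      push Not at hge
      by_cases h2 : fsd y x ≤ r / 2
      · have h3 := huq' x hx hge h2
        have h4 : 0 ≤ χ x := Real.smoothTransition.nonneg _
        have h5 : χ x ≤ 1 := Real.smoothTransition.le_one _
        simp only [hg] at hle
        rcases h4.eq_or_lt with h6 | h6
        · rw [← h6] at hle; linarith
        · nlinarith [mul_pos h6 (sub_pos.2 h3), mul_nonneg (sub_nonneg.2 h5) (sub_pos.2 hxM).le]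
      · push Not at h2
        simp only [hg, hχ0 x h2.le] at hle
        linarith
    have h1 : ∀ᶠ z in 𝓝 x, fsd y z < r / 4 := (hd.1 x hx.1).continuousAt.eventually_lt continuousAt_const hlt
    have h2 : g =ᶠ[𝓝 x] q' := by
      filter_upwards [h1] with z hz
      simp [hg, hχ1 z hz.le]
    intro hG
    refine hq'n x hx (by linarith) (good_mono hG (fun v hv => ?_) (by rw [h2.eq_of_nhds]))
    simp only [Geo.eta, levi_congr h2, le_refl]
  obtain ⟨u', hu', hle⟩ := regmin hpair one_pos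
  have h1 := (hle y hy).2
  have h2 := env_le h hu' hy
  have h3 : g y = env X a b y - ε * r / 8 := by
    simp only [hg, hχ1 y (by rw [fsd_self hy0]; positivity), hq', fsd_self hy0, hk]
    ring
  linarith

end

end D2

/-- D2: Perron. -/
theorem stD2 {N n : ℕ} (X : Geo N n) {a b C : ℝ} (h : ∀ u, X.Sup a b u → ∀ y ∈ X.Y, -C ≤ u y) :
    ∃ u, X.VSub a b u (Real.exp (-C)) := by
  refine ⟨D2.env X a b, D2.env_hom, D2.env_usc h, ?_, fun y hy q hq hq0 hmax => D2.env_test h hy hq hq0 hmax⟩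
  obtain ⟨M, hM⟩ := D2.sup_const X a b
  refine ⟨max |C| |M|, fun y hy => abs_le.2 ⟨?_, ?_⟩⟩
  · have := D2.le_env h hy
    have := le_abs_self C
    have := le_max_left |C| |M|
    linarith
  · have := D2.env_le h hM hy
    have := le_abs_self M
    have := le_max_right |C| |M|
    linarith

end Crest.Agent.R269
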