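import Crest.Agent.R269.D.D1b

/-!
# Row 269, block D1: lower bound for supersolutions (statements FROZEN; recipe in Blueprint.lean)
-/

set_option autoImplicit false
set_option linter.unusedSectionVars false
set_option linter.unusedVariables false

noncomputable section

namespace Crest.Agent.R269

open Set Metric Filter Topology MeasureTheory Matrix
open Crest.AlgGeometry.ProjEmb
open scoped InnerProductSpace ContDiff

theorem d1_pigeon {S x : ℕ → ℝ} {η C : ℝ} (hη : 0 < η) (h0 : 0 ≤ S 0) (hC : ∀ k, S k ≤ C)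
    (h : ∀ k, S k + x k / 2 ≤ S (k + 1)) : ∃ k, x k ≤ η := by
  by_contra hx
  push Not at hx
  have : ∀ k : ℕ, k * (η / 2) ≤ S k := fun k => by
    induction k with
    | zero => simpa using h0
    | succ k ih => push_cast; linarith [h k, hx k]
  obtain ⟨k, hk⟩ := exists_nat_gt (C / (η / 2))
  rw [div_lt_iff₀ (half_pos hη)] at hk
  linarith [this k, hC k]

theorem Geo.d1_dat {N n : ℕ} (X : Geo N n) {y : Cn (N + 1)} (hy : y ∈ X.Y) {a κ R : ℝ} (ha : 0 ≤ a) (hκ : 0 < κ)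
    (hR : 0 < R) {u : Cn (N + 1) → ℝ} (hu : X.Adm u) (b : ℝ) : ∃ D : X.Dat, D.a = a ∧ D.b = b ∧ D.κ = κ ∧ D.R = R ∧
      D.u = u ∧ (∀ x, D.χ x = 0) ∧ ∀ x, x ∈ D.C ↔ ∃ t : ℂ, t ≠ 0 ∧ x = t • y := by
  have hn : 0 < ‖y‖ := norm_pos_iff.2 hy.1
  have h1 : ‖(‖y‖ : ℂ)⁻¹ • y‖ = 1 := by simp [norm_smul, hn.ne']
  refine ⟨⟨a, b, κ, R, u, innerSL ℂ ((‖y‖ : ℂ)⁻¹ • y), {x | ∃ t : ℂ, t ≠ 0 ∧ x = t • y}, fun _ => 0, ha, hκ, hR, hu,
    by rw [innerSL_apply_norm, h1], ?_, ⟨y, 1, one_ne_zero, (one_smul _ _).symm⟩, ?_, ?_, ?_, continuousOn_const,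
    fun _ _ _ _ => rfl⟩, rfl, rfl, rfl, rfl, rfl, fun _ => rfl, fun _ => Iff.rfl⟩
  · rintro _ ⟨t, ht, rfl⟩
    exact X.smul_mem_Y hy ht
  · rintro _ ⟨t, ht, rfl⟩ s hs
    exact ⟨s * t, mul_ne_zero hs ht, smul_smul _ _ _⟩
  · convert (isCompact_sphere (0 : ℂ) ‖y‖⁻¹).image (f := fun t => t • y) (by fun_prop) using 1
    ext x
    constructor
    · rintro ⟨⟨t, ht, rfl⟩, h⟩
      rw [mem_sphere_zero_iff_norm, norm_smul] at h
      exact ⟨t, mem_sphere_zero_iff_norm.2 (eq_inv_of_mul_eq_one_left h), rfl⟩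
    · rintro ⟨t, ht, rfl⟩
      rw [mem_sphere_zero_iff_norm] at ht
      refine ⟨⟨t, norm_ne_zero_iff.1 (ht ▸ inv_ne_zero hn.ne'), rfl⟩, mem_sphere_zero_iff_norm.2 ?_⟩
      rw [norm_smul, ht, inv_mul_cancel₀ hn.ne']
  · rintro _ ⟨t, ht, rfl⟩
    have : ‖innerSL ℂ ((‖y‖ : ℂ)⁻¹ • y) (t • y)‖ = ‖t • y‖ := by
      rw [innerSL_apply_apply, inner_smul_left, inner_smul_right, inner_self_eq_norm_sq_to_K, norm_smul]
      simp
      field_simp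
    linarith [norm_nonneg (t • y)]

/-- D1: the lower bound for supersolutions. -/
theorem stD1 {N n : ℕ} (X : Geo N n) (h : X.Core) : ∃ C₀ : ℝ, ∀ a b κ₀ C₁ C₂ : ℝ, 0 ≤ a → 0 < κ₀ → X.PB a (b - κ₀) C₂ →
    X.PB (a - 1) (b + (n + 1)) C₁ → ∀ u, X.Sup a b u → ∀ y ∈ X.Y, -C₀ - C₁ ≤ u y := by
  obtain ⟨𝒟, Reg, CH, hCH, hPhi, hReg, hconst, -, hcore⟩ := h
  refine ⟨CH + 2 + Real.log 16 + (n + 1) * Real.log 2, fun a b κ₀ C₁ C₂ ha hκ₀ hP2 hP1 u hu y hy => ?_⟩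
  obtain ⟨B, hB⟩ := hu.1.bdd
  have hB0 : 0 ≤ B := (abs_nonneg _).trans (hB y hy)
  have huc : ContinuousOn u X.Y := fun y hy => (hu.1.1 y hy.1).continuousAt.continuousWithinAt
  obtain ⟨ε, hε, hmaj⟩ := X.d1_maj hu
  obtain ⟨C₃, hC₃⟩ : ∃ C₃, C₃ = CH + |C₂| + 2 * B + 1 := ⟨_, rfl⟩
  have hC0 : 0 < C₃ := by rw [hC₃]; positivity
  obtain ⟨κ, hκ, k1, k2, k3⟩ : ∃ κ, 0 < κ ∧ κ ≤ ε ∧ κ ≤ κ₀ / 2 ∧ κ * (2 * C₃) ≤ κ₀ :=
    ⟨min ε (min (κ₀ / 2) (κ₀ / (2 * C₃))), by positivity, min_le_left _ _,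
      (min_le_right _ _).trans (min_le_left _ _),
      (le_div_iff₀ (by positivity)).1 ((min_le_right _ _).trans (min_le_right _ _))⟩
  obtain ⟨R, hR, hκR⟩ : ∃ R, 0 < R ∧ κ * R = 2 * C₃ := ⟨2 * C₃ / κ, by positivity, by field_simp⟩
  obtain ⟨Γ, hM, hMd⟩ := hmaj κ (κ / R) hκ k1 (by positivity)
  obtain ⟨CΓ, hCΓ, hc⟩ := hcore Γ _ hM
  obtain ⟨D, rfl, rfl, rfl, rfl, rfl, hχ, hDC⟩ := X.d1_dat hy ha hκ hR hu.1 b
  choose d hd1 hd2 hd3 hd4 using hc D hMd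
  have hn : (‖y‖ : ℂ)⁻¹ ≠ 0 := inv_ne_zero (by exact_mod_cast norm_ne_zero_iff.2 hy.1)
  obtain ⟨d₀, e1, e2, e3, e4⟩ := hconst _ (X.smul_mem_Y hy hn)
  have hL0 : D.L d₀ = 0 := by
    have h1 : ‖(‖y‖ : ℂ)⁻¹ • y‖ = 1 := by simp [norm_smul, norm_ne_zero_iff.2 hy.1]
    simp only [Geo.Dat.L, Geo.NN, Geo.Disc.Phi, Geo.Disc.TH, Geo.Disc.avg, Geo.Disc.s0, e2, e3, hχ, h1,
      Real.circleAverage_const]
    simp [xi_zero _ hR]
  have hup : ∀ d : X.Disc, d.G 0 ∈ D.C → D.L d ≤ CH - (D.a * d.TB + D.b * d.TH + d.avg D.u - D.u (d.G 0)) +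
      D.κ * d.TH - xi D.κ D.R d.s0 / 2 := fun d hd => by
    have h1 := hPhi d D.ℓ D.hℓ (D.Cℓ _ hd)
    have h2 := d.xi_le_avg hκ.le hR
    simp only [Geo.Dat.L, Geo.NN, hχ]
    linarith
  have hup' : ∀ d : X.Disc, d.G 0 ∈ D.C → D.L d ≤ C₃ - κ₀ / 2 * d.TH - xi D.κ D.R d.s0 / 2 := fun d hd => by
    have h1 := hup d hd
    have h2 := hP2 d
    have h3 := d.avg_mono continuousOn_const huc fun y hy => (abs_le.1 (hB y hy)).1
    rw [d.avg_const] at h3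
    have h4 := (abs_le.1 (hB _ (D.CY hd))).2
    have h5 := mul_le_mul_of_nonneg_right k2 d.TH_nonneg
    have h6 := le_abs_self C₂
    linarith
  have hlow : ∀ τ hτ, τ * Reg (d τ hτ) ≤ D.L (d τ hτ) := fun τ hτ => by
    have := hd3 τ hτ d₀ e1 (by rw [e2]; exact (hDC _).2 ⟨_, hn, rfl⟩)
    rw [hL0, e4] at this
    linarith
  obtain ⟨η, hη, hη'⟩ : ∃ η, 0 < η ∧ CΓ * (2 * η) ≤ 1 :=
    ⟨1 / (2 * CΓ + 2), by positivity, by rw [mul_one_div, ← mul_div_assoc, div_le_one (by positivity)]; linarith⟩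
  have hτ : ∀ k : ℕ, 0 < η / 2 ^ k := fun k => by positivity
  obtain ⟨k, hk⟩ := d1_pigeon (S := fun k => D.L (d _ (hτ k)) - η / 2 ^ k * Reg (d _ (hτ k)))
    (x := fun k => η / 2 ^ k * Reg (d _ (hτ k))) (C := C₃) hη (sub_nonneg.2 (hlow _ _)) (fun k => by
      have h1 := hup' _ (hd2 _ (hτ k))
      have h2 := mul_nonneg (half_pos hκ₀).le (d _ (hτ k)).TH_nonneg
      have h3 := xi_nonneg hκ.le hR (d _ (hτ k)).s0
      have h4 := mul_nonneg (hτ k).le (hReg _ (hd1 _ (hτ k))).1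
      linarith) fun k => by
      have h1 := hd3 _ (hτ (k + 1)) _ (hd1 _ (hτ k)) (hd2 _ (hτ k))
      have h2 : η / 2 ^ (k + 1) * Reg (d _ (hτ k)) = η / 2 ^ k * Reg (d _ (hτ k)) / 2 := by ring
      linarith
  have hτη : η / 2 ^ k ≤ η := div_le_self hη.le (one_le_pow₀ one_le_two)
  have g1 := hd4 _ (hτ k) 1 (Or.inl rfl)
  have g2 := hup _ (hd2 _ (hτ k))
  have g3 := hup' _ (hd2 _ (hτ k))
  have g4 := hlow _ (hτ k)
  have g5 := (hReg _ (hd1 _ (hτ k))).1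
  obtain ⟨t, ht, g6⟩ := (hDC _).1 (hd2 _ (hτ k))
  have g7 := hτ k
  generalize d _ (hτ k) = e at *
  generalize η / 2 ^ k = τ at *
  have g8 := e.TH_nonneg
  have g9 := xi_nonneg hκ.le hR e.s0
  have g10 := mul_nonneg g7.le g5
  have g11 := mul_nonneg (half_pos hκ₀).le g8
  have g12 : D.κ * e.TH ≤ 1 := by
    have : D.κ * e.TH * (2 * C₃) ≤ 1 * (2 * C₃) := by nlinarith
    exact le_of_mul_le_mul_right this (by positivity)
  have g13 : √(D.R ^ 2 + e.s0 ^ 2) ≤ 2 * D.R := by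
    have : D.κ * √(D.R ^ 2 + e.s0 ^ 2) ≤ D.κ * (2 * D.R) := by
      have : xi D.κ D.R e.s0 ≤ 2 * C₃ := by linarith
      rw [xi] at this
      linarith
    exact le_of_mul_le_mul_left this hκ
  have g14 : Real.log (D.κ / D.R) - Real.log 16 ≤
      Real.log (D.κ * D.R ^ 2 / (2 * √(D.R ^ 2 + e.s0 ^ 2) ^ 3)) := by
    rw [← Real.log_div (by positivity) (by norm_num)]
    refine Real.log_le_log (by positivity) ?_
    have h1 : √(D.R ^ 2 + e.s0 ^ 2) ^ 3 ≤ (2 * D.R) ^ 3 := pow_le_pow_left₀ (Real.sqrt_nonneg _) g13 3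
    calc D.κ / D.R / 16 = D.κ * D.R ^ 2 / (2 * (2 * D.R) ^ 3) := by field_simp; norm_num
      _ ≤ _ := div_le_div_of_nonneg_left (by positivity) (by positivity) (by linarith)
  have g15 : Real.log (1 + CΓ * τ * (1 + Reg e)) ≤ Real.log 2 := by
    refine Real.log_le_log (by positivity) ?_
    have : CΓ * (τ + τ * Reg e) ≤ CΓ * (2 * η) := mul_le_mul_of_nonneg_left (by linarith) hCΓ
    linarith
  have g16 := mul_le_mul_of_nonneg_left g15 (show (0 : ℝ) ≤ n + 1 by positivity)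
  have g17 := hP1 e
  rw [e.avg_add huc continuousOn_const, e.avg_const, Real.log_one] at g1
  rw [g6, hu.1.2 y hy t ht] at g2
  linarith

end Crest.Agent.R269
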