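import Crest.Agent.R269.D.Sup

/-!
# Row 269, block D1: linear algebra for the majorant
-/

set_option autoImplicit false
set_option linter.unusedSectionVars false
set_option linter.unusedVariables false

noncomputable section

namespace Crest.Agent.R269

open Set Metric Filter Topology Matrix
open scoped InnerProductSpace MatrixOrder ComplexOrder

theorem d1_pp {m : Type} [Fintype m] [DecidableEq m] : ∃ pp : Matrix m m ℂ → Matrix m m ℂ,
    ContinuousOn pp {A | A.IsHermitian} ∧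
      ∀ A B : Matrix m m ℂ, A.PosSemidef → B.PosSemidef → A * B = 0 → pp (A - B) = A := by
  open scoped Matrix.Norms.L2Operator in
  refine ⟨fun A => A⁺, ?_, fun A B hA hB h => (CFC.posPart_negPart_unique rfl h hA.nonneg hB.nonneg).1⟩
  simp only [CFC.posPart_def]
  open scoped Matrix.Norms.L2Operator in
  exact ContinuousOn.cfcₙ_of_mem_nhdsSet (s := Set.univ) (fun x : ℝ => x⁺) (a := id) (by simp) continuousOn_id
    (fun A hA => hA)

variable {m r : ℕ}

theorem d1_qf_add (A B : Matrix (Fin m) (Fin m) ℂ) (v : Cn m) : qf (A + B) v = qf A v + qf B v := by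
  simp [qf, add_mulVec]

theorem d1_qf_sub (A B : Matrix (Fin m) (Fin m) ℂ) (v : Cn m) : qf (A - B) v = qf A v - qf B v := by
  simp [qf, sub_mulVec]

theorem d1_qf_smul (c : ℝ) (A : Matrix (Fin m) (Fin m) ℂ) (v : Cn m) : qf ((c : ℂ) • A) v = c * qf A v := by
  simp [qf, smul_mulVec]

theorem d1_qf_conj (A : Matrix (Fin r) (Fin r) ℂ) (P : Matrix (Fin r) (Fin m) ℂ) (v : Cn m) :
    qf (Pᴴ * A * P) v = qf A (WithLp.toLp 2 (P *ᵥ v.ofLp)) := by
  simp only [qf, ← mulVec_mulVec, star_mulVec, dotProduct_mulVec, vecMul_vecMul]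

theorem d1_qf_diag (d : Fin r → ℝ) (v : Cn r) : qf (diagonal fun i => (d i : ℂ)) v = ∑ i, d i * ‖v i‖ ^ 2 := by
  simp only [qf, dotProduct, mulVec_diagonal, Complex.re_sum, Pi.star_apply]
  refine Finset.sum_congr rfl fun i _ => ?_
  rw [mul_left_comm, Complex.re_ofReal_mul, Complex.star_def, Complex.conj_mul', ← Complex.ofReal_pow, Complex.ofReal_re]

theorem d1_ext {A B : Matrix (Fin m) (Fin m) ℂ} (hA : A.IsHermitian) (hB : B.IsHermitian)
    (h : ∀ v, qf A v = qf B v) : A = B := by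
  have key : ∀ {A B : Matrix (Fin m) (Fin m) ℂ}, A.IsHermitian → B.IsHermitian → (∀ v, qf A v = qf B v) → A ≤ B :=
    fun {A B} hA hB h => Matrix.le_iff.2 (PosSemidef.of_dotProduct_mulVec_nonneg (hB.sub hA) fun x => by
      have h1 := d1_qf_sub B A (WithLp.toLp 2 x)
      rw [h, sub_self] at h1
      exact RCLike.nonneg_iff.2 ⟨h1.ge, (hB.sub hA).im_star_dotProduct_mulVec_self x⟩)
  exact le_antisymm (key hA hB h) (key hB hA fun v => (h v).symm)

/-- `E diag(d) Eᴴ` -/
def dg (E : Matrix (Fin m) (Fin r) ℂ) (d : Fin r → ℝ) : Matrix (Fin m) (Fin m) ℂ :=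
  E * (diagonal fun i => (d i : ℂ)) * Eᴴ

variable {E : Matrix (Fin m) (Fin r) ℂ}

theorem dg_add (d d' : Fin r → ℝ) : dg E d + dg E d' = dg E (d + d') := by
  simp only [dg, ← Matrix.add_mul, ← Matrix.mul_add, diagonal_add, Pi.add_apply, Complex.ofReal_add]

theorem dg_sub (d d' : Fin r → ℝ) : dg E d - dg E d' = dg E (d - d') := by
  simp only [dg, ← Matrix.sub_mul, ← Matrix.mul_sub, diagonal_sub, Pi.sub_apply, Complex.ofReal_sub]

theorem dg_smul (c : ℝ) (d : Fin r → ℝ) : (c : ℂ) • dg E d = dg E (c • d) := by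
  rw [dg, ← Matrix.smul_mul, ← Matrix.mul_smul, ← diagonal_smul, dg]
  congr 3
  ext i
  simp

theorem dg_one : dg E 1 = E * Eᴴ := by simp [dg]

theorem dg_conj (hE : Eᴴ * E = 1) (d : Fin r → ℝ) : Eᴴ * dg E d * E = diagonal fun i => (d i : ℂ) := by
  rw [dg, Matrix.mul_assoc, Matrix.mul_assoc, hE, Matrix.mul_one, ← Matrix.mul_assoc, hE, Matrix.one_mul]

theorem dg_mul (hE : Eᴴ * E = 1) (d d' : Fin r → ℝ) : dg E d * dg E d' = dg E (d * d') := by
  calc dg E d * dg E d' = E * ((diagonal fun i => (d i : ℂ)) * (Eᴴ * E) * diagonal fun i => (d' i : ℂ)) * Eᴴ := by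
        simp only [dg, Matrix.mul_assoc]
    _ = _ := by simp only [hE, Matrix.mul_one, diagonal_mul_diagonal, dg, Pi.mul_apply, Complex.ofReal_mul]

theorem dg_psd {d : Fin r → ℝ} (h : ∀ i, 0 ≤ d i) : (dg E d).PosSemidef :=
  (PosSemidef.diagonal fun i => Complex.zero_le_real.2 (h i)).mul_mul_conjTranspose_same E

theorem dg_herm (d : Fin r → ℝ) : (dg E d).IsHermitian :=
  isHermitian_mul_mul_conjTranspose E (isHermitian_diagonal_of_self_adjoint _ (funext fun i => Complex.conj_ofReal _))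

theorem dg_qf (d : Fin r → ℝ) (v : Cn m) : qf (dg E d) v = ∑ i, d i * ‖(Eᴴ *ᵥ v.ofLp) i‖ ^ 2 := by
  have := d1_qf_conj (diagonal fun i => (d i : ℂ)) Eᴴ v
  rw [conjTranspose_conjTranspose] at this
  rw [dg, this, d1_qf_diag]

theorem dg_det (hE : Eᴴ * E = 1) (d : Fin r → ℝ) : (dg E d + 1 - dg E 1).det.re = ∏ i, d i := by
  rw [add_sub_right_comm, dg_sub, add_comm, dg, Matrix.mul_assoc, det_one_add_mul_comm, Matrix.mul_assoc, hE,
    Matrix.mul_one, ← diagonal_one, diagonal_add, det_diagonal]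
  simp only [Pi.sub_apply, Pi.one_apply, Complex.ofReal_sub, Complex.ofReal_one, add_sub_cancel]
  rw [← Complex.ofReal_prod, Complex.ofReal_re]

theorem dg_det' (hE : Eᴴ * E = 1) (d : Fin r → ℝ) (S : Matrix (Fin r) (Fin r) ℂ) :
    ((E * S)ᴴ * dg E d * (E * S)).det.re = (∏ i, d i) * gram (E * S) := by
  have h1 : (E * S)ᴴ * dg E d * (E * S) = Sᴴ * (Eᴴ * dg E d * E) * S := by
    simp only [conjTranspose_mul, Matrix.mul_assoc]
  rw [h1, dg_conj hE, det_mul, det_mul, det_conjTranspose, det_diagonal, gram_mul, gram, hE, det_one,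
    ← Complex.ofReal_prod, mul_right_comm, Complex.star_def, Complex.conj_mul', ← Complex.ofReal_pow,
    ← Complex.ofReal_mul, Complex.ofReal_re]
  simp [mul_comm]

theorem d1_entry (f : Fin r → Cn m) (M : Matrix (Fin m) (Fin m) ℂ) (i j : Fin r) :
    ((colM f)ᴴ * M * colM f) i j = ⟪f i, toEuclideanLin M (f j)⟫_ℂ := by
  rw [Matrix.mul_assoc]
  simp only [PiLp.inner_apply, mul_apply, colM, conjTranspose_apply, toLpLin_apply,
    RCLike.inner_apply, mulVec, dotProduct]
  exact Finset.sum_congr rfl fun k _ => mul_comm _ _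

namespace Geo

variable {N n : ℕ} (X : Geo N n)

theorem d1_frame {y : Cn (N + 1)} (hy : y ∈ X.Y) {A : Matrix (Fin (N + 1)) (Fin (N + 1)) ℂ} (hA : A.IsHermitian) :
    ∃ (E : Matrix (Fin (N + 1)) (Fin (n + 1)) ℂ) (l : Fin n → ℝ), X.IsFrame y E ∧ Eᴴ * E = 1 ∧
      (∀ i, E i 0 = (‖y‖ : ℂ)⁻¹ * y i) ∧ ∀ i j : Fin n, (Eᴴ * A * E) i.succ j.succ = if i = j then (l i : ℂ) else 0 := by
  let W : Submodule ℂ (Cn (N + 1)) := (ℂ ∙ y)ᗮ ⊓ X.T y
  have hW : Module.finrank ℂ W = n := by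
    have := Submodule.finrank_add_inf_finrank_orthogonal
      ((Submodule.span_singleton_le_iff_mem _ _).2 (X.self_mem_T hy))
    rw [finrank_span_singleton hy.1, X.finrank_T hy] at this
    change 1 + Module.finrank ℂ W = _ at this
    omega
  let B : W →ₗ[ℂ] W := W.orthogonalProjectionOnto.toLinearMap ∘ₗ toEuclideanLin A ∘ₗ W.subtype
  have hB1 : ∀ x z : W, ⟪x, B z⟫_ℂ = ⟪(x : Cn (N + 1)), toEuclideanLin A z⟫_ℂ := fun x z =>
    W.inner_orthogonalProjectionOnto_eq_of_mem_left x _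
  have hB : LinearMap.IsSymmetric (𝕜 := ℂ) (E := W) B := fun x z => by
    rw [← inner_conj_symm, hB1, hB1, inner_conj_symm]
    exact isSymmetric_toEuclideanLin_iff.2 hA _ _
  let e := hB.eigenvectorBasis hW
  have hn : ‖y‖ ≠ 0 := norm_ne_zero_iff.2 hy.1
  let f : Fin (n + 1) → Cn (N + 1) := Fin.cons ((‖y‖ : ℂ)⁻¹ • y) fun j => (e j : Cn (N + 1))
  have hf : Orthonormal ℂ f := by
    have h0 : ∀ j, ⟪y, (e j : Cn (N + 1))⟫_ℂ = 0 := fun j =>
      Submodule.mem_orthogonal_singleton_iff_inner_right.1 (e j).2.1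
    rw [orthonormal_iff_ite]
    intro i j
    refine Fin.cases ?_ (fun i => ?_) i <;> refine Fin.cases ?_ (fun j => ?_) j
    · simp only [f, Fin.cons_zero, inner_self_eq_norm_sq_to_K, norm_smul]
      simp [hn]
    · simp only [f, Fin.cons_zero, Fin.cons_succ, inner_smul_left, h0, mul_zero]
      rw [if_neg (Fin.succ_ne_zero j).symm]
    · simp only [f, Fin.cons_zero, Fin.cons_succ, inner_smul_right, inner_eq_zero_symm.1 (h0 i), mul_zero]
      rw [if_neg (Fin.succ_ne_zero i)]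
    · simp only [f, Fin.cons_succ, Fin.succ_inj]
      exact orthonormal_iff_ite.1 e.orthonormal i j
  refine ⟨colM f, hB.eigenvalues hW, X.isFrame_colM.2 ⟨fun a => ?_, hf.linearIndependent⟩, ?_, fun i => rfl,
    fun i j => ?_⟩
  · exact Fin.cases (Submodule.smul_mem _ _ (X.self_mem_T hy)) (fun j => (e j).2.2) a
  · ext i j
    have := d1_entry f 1 i j
    rw [Matrix.mul_one] at this
    rw [this, one_apply, ← orthonormal_iff_ite.1 hf i j]
    simp
  · rw [d1_entry]
    change ⟪(e i : Cn (N + 1)), toEuclideanLin A (e j : Cn (N + 1))⟫_ℂ = _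
    rw [← hB1, hB.apply_eigenvectorBasis, inner_smul_right, orthonormal_iff_ite.1 e.orthonormal i j]
    split_ifs with h
    · simp [h]
    · simp

end Geo

end Crest.Agent.R269
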