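import Crest.Agent.R269.D.D1a

/-!
# Row 269, block D1: the majorant
-/

set_option autoImplicit false
set_option linter.unusedSectionVars false
set_option linter.unusedVariables false

noncomputable section

namespace Crest.Agent.R269

open Set Metric Filter Topology Matrix
open scoped InnerProductSpace ComplexOrder

/-- projection onto the line through `y` -/
def d1P {m : ℕ} (y : Cn m) : Matrix (Fin m) (Fin m) ℂ := fun i j => ((‖y‖ ^ 2 : ℝ) : ℂ)⁻¹ * (y i * star (y j))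

theorem d1P_mulVec {m : ℕ} (y v : Cn m) :
    d1P y *ᵥ v.ofLp = ((((‖y‖ ^ 2 : ℝ) : ℂ)⁻¹ * ⟪y, v⟫_ℂ) • y).ofLp := by
  ext i
  simp only [d1P, mulVec, dotProduct, PiLp.inner_apply, RCLike.inner_apply, WithLp.ofLp_smul, Pi.smul_apply,
    smul_eq_mul, Finset.mul_sum, Finset.sum_mul]
  exact Finset.sum_congr rfl fun k _ => by rw [Complex.star_def]; ring

theorem d1_qf_eq {m : ℕ} (A : Matrix (Fin m) (Fin m) ℂ) (v w : Cn m) (h : A *ᵥ v.ofLp = w.ofLp) :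
    qf A v = (⟪v, w⟫_ℂ).re := by
  rw [qf, h, EuclideanSpace.inner_eq_star_dotProduct, dotProduct_comm]

theorem d1P_qf {m : ℕ} (y v : Cn m) : qf (d1P y) v = ‖⟪y, v⟫_ℂ‖ ^ 2 / ‖y‖ ^ 2 := by
  rw [d1_qf_eq _ _ _ (d1P_mulVec y v), inner_smul_right, ← inner_conj_symm v y, mul_assoc, Complex.mul_conj',
    ← Complex.ofReal_inv, ← Complex.ofReal_pow, ← Complex.ofReal_mul, Complex.ofReal_re, div_eq_inv_mul]

theorem d1P_smul {m : ℕ} (y : Cn m) {t : ℂ} (ht : t ≠ 0) : d1P (t • y) = d1P y := by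
  ext i j
  have h : t * star t = ((‖t‖ ^ 2 : ℝ) : ℂ) := by rw [Complex.star_def, Complex.mul_conj']; simp
  have h' : ((‖t‖ ^ 2 : ℝ) : ℂ) ≠ 0 := h ▸ mul_ne_zero ht (star_ne_zero.2 ht)
  simp only [d1P, norm_smul, mul_pow, Complex.ofReal_mul, PiLp.smul_apply, smul_eq_mul, star_mul', mul_inv]
  rw [mul_mul_mul_comm t, h]
  field_simp

theorem d1P_cont {m : ℕ} : ContinuousOn (d1P : Cn m → _) {y | y ≠ 0} := by
  refine continuousOn_pi.2 fun i => continuousOn_pi.2 fun j => ContinuousOn.mul ?_ (by fun_prop)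
  exact ContinuousOn.inv₀ (by fun_prop) fun y hy => by simpa using hy

namespace Geo

variable {N n : ℕ} (X : Geo N n)

theorem d1_point {y : Cn (N + 1)} (hy : y ∈ X.Y) {A π : Matrix (Fin (N + 1)) (Fin (N + 1)) ℂ} (hA : A.IsHermitian)
    (h1 : π.IsHermitian) (h2 : X.J y * π = 0) (h3 : ∀ v ∈ X.T y, π *ᵥ v.ofLp = v.ofLp) :
    ∃ (E : Matrix (Fin (N + 1)) (Fin (n + 1)) ℂ) (l : Fin n → ℝ), X.IsFrame y E ∧ Eᴴ * E = 1 ∧
      (∀ i, E i 0 = (‖y‖ : ℂ)⁻¹ * y i) ∧ π = dg E 1 ∧ d1P y = dg E (Fin.cons 1 0) ∧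
      (π - d1P y) * A * (π - d1P y) = dg E (Fin.cons 0 l) := by
  obtain ⟨E, l, hF, hE, h0, hl⟩ := X.d1_frame hy hA
  have e1 : π = dg E 1 := by
    have a1 : π * E = E := by
      ext i j
      exact congrFun (h3 (WithLp.toLp 2 fun k => E k j) (funext fun k => congrFun (congrFun hF.1 k) j)) i
    have a2 : E * Eᴴ * π = π := by
      ext i j
      obtain ⟨a, ha⟩ := (IsFrame.range hy hF (v := WithLp.toLp 2 fun k => π k j)).1
        (funext fun k => congrFun (congrFun h2 k) j)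
      have : (E * Eᴴ) *ᵥ (E *ᵥ a) = E *ᵥ a := by
        rw [mulVec_mulVec, Matrix.mul_assoc, hE, Matrix.mul_one]
      rw [← ha] at this
      exact congrFun this i
    rw [dg_one, ← a2, Matrix.mul_assoc, ← h1.eq, ← conjTranspose_mul, a1]
  have e2 : d1P y = dg E (Fin.cons 1 0) := by
    ext i j
    rw [dg, mul_apply, Fin.sum_univ_succ]
    simp only [d1P, mul_diagonal, h0, conjTranspose_apply]
    simp
    ring
  refine ⟨E, l, hF, hE, h0, e1, e2, ?_⟩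
  rw [e1, e2, dg_sub, dg, dg]
  simp only [Matrix.mul_assoc]
  congr 1
  simp only [← Matrix.mul_assoc]
  congr 1
  rw [Matrix.mul_assoc _ Eᴴ, Matrix.mul_assoc _ (Eᴴ * A)]
  ext i j
  rw [mul_diagonal, diagonal_mul, diagonal_apply]
  refine Fin.cases ?_ (fun i => ?_) i <;> refine Fin.cases ?_ (fun j => ?_) j
  · simp
  · simp
  · simp
  · simp [hl]

theorem d1_good {a b c : ℝ} {u : Cn (N + 1) → ℝ} {y : Cn (N + 1)} (hy : y ∈ X.Y) (hc : 0 < c)
    {E : Matrix (Fin (N + 1)) (Fin (n + 1)) ℂ} {l : Fin n → ℝ} (hE : Eᴴ * E = 1)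
    (h0 : ∀ i, E i 0 = (‖y‖ : ℂ)⁻¹ * y i) (h1 : ∀ v ∈ X.T y, dg E 1 *ᵥ v.ofLp = v.ofLp)
    (h2 : ∀ v ∈ X.T y, qf (dg E (Fin.cons 0 l)) v = ‖y‖ ^ 2 * X.eta a b u y v) (h : c ≤ ∏ i, (l i)⁺) :
    X.Good a b u y c := by
  intro v hv
  have hn : 0 < ‖y‖ := norm_pos_iff.2 hy.1
  have hl : ∀ i, 0 ≤ l i := fun i => by
    by_contra hi
    rw [Finset.prod_eq_zero (Finset.mem_univ i) (posPart_eq_zero.2 (not_le.1 hi).le)] at h
    linarith
  simp only [posPart_eq_self.2 (hl _)] at h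
  let w : Fin n → Cn n := fun j => WithLp.toLp 2 fun i => (Eᴴ *ᵥ (v j).ofLp) i.succ
  obtain ⟨b1, b2⟩ := bellman_of_psd X.npos (A := diagonal fun i => (l i : ℂ))
    (PosSemidef.diagonal fun i => Complex.zero_le_real.2 (hl i)) (c := c)
    (by rwa [det_diagonal, ← Complex.ofReal_prod, Complex.ofReal_re]) w
  have e1 : ∑ j, qf (diagonal fun i => (l i : ℂ)) (w j) = ‖y‖ ^ 2 * ∑ j, X.eta a b u y (v j) := by
    rw [Finset.mul_sum]
    refine Finset.sum_congr rfl fun j _ => ?_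
    rw [← h2 _ (hv j), dg_qf, d1_qf_diag, Fin.sum_univ_succ]
    simp [w]
  have e2 : gv y v = ‖(colM w).det‖ ^ 2 := by
    set U := colM (Fin.cons y v : Fin (n + 1) → Cn (N + 1)) with hU
    have a1 : U = E * (Eᴴ * U) := by
      rw [← Matrix.mul_assoc, ← dg_one]
      ext i j
      exact (congrFun (h1 ((Fin.cons y v : Fin (n + 1) → Cn (N + 1)) j)
        (Fin.cases (X.self_mem_T hy) hv j)) i).symm
    have a2 : ∀ i, (Eᴴ * U) i 0 = (‖y‖ : ℂ) * (1 : Matrix (Fin (n + 1)) (Fin (n + 1)) ℂ) i 0 := fun i => by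
      rw [← hE]
      simp only [mul_apply, h0, Finset.mul_sum]
      refine Finset.sum_congr rfl fun k _ => ?_
      have : (‖y‖ : ℂ) ≠ 0 := by exact_mod_cast hn.ne'
      change _ * y k = _
      field_simp
    have a3 : (Eᴴ * U).det = ‖y‖ * (colM w).det := by
      rw [det_succ_column_zero, Fin.sum_univ_succ]
      simp only [a2, one_apply_eq, one_apply_ne (Fin.succ_ne_zero _), mul_zero, zero_mul, Finset.sum_const_zero]
      simp only [Fin.val_zero, pow_zero, one_mul, mul_one, add_zero, Fin.succAbove_zero]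
      rfl
    rw [gv, ← hU, a1, gram_mul, a3, gram, hE, det_one, norm_mul]
    simp only [Complex.one_re, Complex.norm_real, norm_norm]
    field_simp
  rw [e1] at b1 b2
  exact ⟨nonneg_of_mul_nonneg_right b1 (by positivity) |> fun h => h, e2 ▸ b2⟩

theorem d1_maj {a b : ℝ} {u : Cn (N + 1) → ℝ} (hu : X.Sup a b u) : ∃ ε > 0, ∀ κ c : ℝ, 0 < κ → κ ≤ ε → 0 < c →
    ∃ Γ, X.Maj Γ (fun y => u y + Real.log c) ∧ ∀ y ∈ X.Y, ∀ v ∈ X.T y,
      ‖y‖ ^ 2 * (X.eta a b u y v + κ * om y v) + c * (‖⟪y, v⟫_ℂ‖ ^ 2 / ‖y‖ ^ 2) ≤ qf (Γ y) v := by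
  obtain ⟨π, hπc, hπ⟩ := X.exists_orth_proj
  obtain ⟨A, hAc, hA⟩ := X.exists_etaM a b hu.1
  obtain ⟨pp, hpc, hpp⟩ := d1_pp (m := Fin (N + 1))
  have hPc : ContinuousOn d1P X.Y := d1P_cont.mono fun y hy => hy.1
  have huc : ContinuousOn u X.Y := fun y hy => (hu.1.1 y hy.1).continuousAt.continuousWithinAt
  let H : Cn (N + 1) → Matrix (Fin (N + 1)) (Fin (N + 1)) ℂ := fun y =>
    (π y - d1P y) * (((‖y‖ ^ 2 : ℝ) : ℂ) • A y) * (π y - d1P y)
  let Γ : ℝ → ℝ → Cn (N + 1) → Matrix (Fin (N + 1)) (Fin (N + 1)) ℂ := fun κ c y =>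
    pp (H y) + (κ : ℂ) • (π y - d1P y) + (c : ℂ) • d1P y
  have hpt : ∀ y ∈ X.Y, ∃ (E : Matrix (Fin (N + 1)) (Fin (n + 1)) ℂ) (l : Fin n → ℝ), X.IsFrame y E ∧ Eᴴ * E = 1 ∧
      (∀ i, E i 0 = (‖y‖ : ℂ)⁻¹ * y i) ∧ π y = dg E 1 ∧ d1P y = dg E (Fin.cons 1 0) ∧ H y = dg E (Fin.cons 0 l) ∧
      pp (H y) = dg E (Fin.cons 0 fun i => (l i)⁺) ∧
      ∀ κ c, Γ κ c y = dg E (Fin.cons c fun i => (l i)⁺ + κ) := fun y hy => by
    obtain ⟨p1, -, p2, p3, -⟩ := hπ y hy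
    obtain ⟨E, l, q1, q2, q3, q4, q5, q6⟩ := X.d1_point hy (A := ((‖y‖ ^ 2 : ℝ) : ℂ) • A y)
      ((hA y hy).1.smul (Complex.conj_ofReal _)) p1 p2 p3
    have q7 : pp (H y) = dg E (Fin.cons 0 fun i => (l i)⁺) := by
      rw [← hpp _ (dg E (Fin.cons 0 fun i => (l i)⁻)) (dg_psd (Fin.cases le_rfl fun i => posPart_nonneg _))
        (dg_psd (Fin.cases le_rfl fun i => negPart_nonneg _)), dg_sub]
      · congr 1
        refine q6.trans (congrArg _ (funext fun i => Fin.cases (by simp) (fun i => by simp) i))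
      · rw [dg_mul q2, show ((Fin.cons 0 fun i => (l i)⁺) * Fin.cons 0 fun i => (l i)⁻ : Fin (n + 1) → ℝ) = 0 from
          funext fun i => Fin.cases (by simp) (fun i => by
            simp only [Pi.mul_apply, Fin.cons_succ, Pi.zero_apply]
            rcases le_total 0 (l i) with h | h
            · rw [negPart_eq_zero.2 h, mul_zero]
            · rw [posPart_eq_zero.2 h, zero_mul]) i]
        simp [dg]
    refine ⟨E, l, q1, q2, q3, q4, q5, q6, q7, fun κ c => ?_⟩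
    simp only [Γ]
    rw [q7, q4, q5, dg_sub, dg_smul, dg_smul, dg_add, dg_add]
    exact congrArg _ (funext fun i => Fin.cases (by simp) (fun i => by simp) i)
  have hHh : ∀ y ∈ X.Y, (H y).IsHermitian := fun y hy => by
    obtain ⟨E, l, -, -, -, -, -, q, -⟩ := hpt y hy
    exact q ▸ dg_herm _
  have hHq : ∀ y ∈ X.Y, ∀ v, WithLp.toLp 2 ((π y - d1P y) *ᵥ v.ofLp) ∈ X.T y ∧
      qf (H y) v = ‖y‖ ^ 2 * X.eta a b u y (WithLp.toLp 2 ((π y - d1P y) *ᵥ v.ofLp)) := fun y hy v => by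
    obtain ⟨E, l, q1, -, -, q4, q5, -⟩ := hpt y hy
    have h1 : (π y - d1P y).IsHermitian := by rw [q4, q5, dg_sub]; exact dg_herm _
    refine ⟨?_, ?_⟩
    · rw [mem_T, mulVec_mulVec, q4, q5, dg_sub, dg, ← Matrix.mul_assoc, ← Matrix.mul_assoc, q1.1]
      simp
    · rw [← (hA y hy).2, ← d1_qf_smul, ← d1_qf_conj, h1.eq]
  have hHT : ∀ y ∈ X.Y, ∀ v ∈ X.T y, qf (H y) v = ‖y‖ ^ 2 * X.eta a b u y v := fun y hy v hv => by
    rw [(hHq y hy v).2, sub_mulVec, (hπ y hy).2.2.2.1 v hv, d1P_mulVec, ← WithLp.ofLp_sub, WithLp.toLp_ofLp,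
      sub_eq_add_neg, ← neg_smul, X.eta_add_self a b hy (hu.1.1 y hy.1) hu.1.2 hv]
  have hΓh : ∀ κ c, ∀ y ∈ X.Y, ∀ t : ℂ, t ≠ 0 → Γ κ c (t • y) = Γ κ c y := fun κ c y hy t ht => by
    have hy' := X.smul_mem_Y hy ht
    have h1 : H (t • y) = H y := d1_ext (hHh _ hy') (hHh _ hy) fun v => by
      rw [(hHq _ hy' v).2, (hHq _ hy v).2, (hπ y hy).2.2.2.2 t ht, d1P_smul y ht,
        ← X.eta_smul_smul a b hy ht (hu.1.1 y hy.1) (hu.1.1 _ hy'.1) hu.1.2 (hHq y hy v).1, X.eta_smul, norm_smul]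
      ring
    simp only [Γ, h1, (hπ y hy).2.2.2.2 t ht, d1P_smul y ht]
  have hHc : ContinuousOn H X.Y :=
    ((hπc.sub hPc).mul (ContinuousOn.smul (f := fun y : Cn (N + 1) => ((‖y‖ ^ 2 : ℝ) : ℂ)) (by fun_prop) hAc)).mul
      (hπc.sub hPc)
  have hΓc : ∀ c, ContinuousOn (fun p : ℝ × Cn (N + 1) => Γ p.1 c p.2) (univ ×ˢ X.Y) := fun c => by
    have s : MapsTo (Prod.snd : ℝ × Cn (N + 1) → _) (univ ×ˢ X.Y) X.Y := fun p hp => hp.2
    exact (((hpc.comp hHc hHh).comp continuousOn_snd s).add (ContinuousOn.smul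
      (f := fun p : ℝ × Cn (N + 1) => (p.1 : ℂ)) (by fun_prop) ((hπc.sub hPc).comp continuousOn_snd s))).add
      ((hPc.comp continuousOn_snd s).const_smul (c : ℂ))
  have hev : ∀ᶠ κ in 𝓝 (0 : ℝ), ∀ y ∈ X.Y ∩ sphere 0 1, y ∈ X.Y → (Γ κ 1 y + 1 - π y).det.re < Real.exp (u y) := by
    refine X.isCompact_Y1.eventually_forall_of_forall_eventually fun y hy => ?_
    have s : MapsTo (Prod.snd : ℝ × Cn (N + 1) → _) (univ ×ˢ X.Y) X.Y := fun p hp => hp.2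
    have c1 : ContinuousOn (fun p : ℝ × Cn (N + 1) => (Γ p.1 1 p.2 + 1 - π p.2).det.re) (univ ×ˢ X.Y) :=
      Complex.continuous_re.comp_continuousOn ((continuous_id.matrix_det).comp_continuousOn
        (((hΓc 1).add continuousOn_const).sub (hπc.comp continuousOn_snd s)))
    have c2 : ContinuousOn (fun p : ℝ × Cn (N + 1) => Real.exp (u p.2)) (univ ×ˢ X.Y) :=
      (huc.comp continuousOn_snd s).rexp
    have h0 : (Γ 0 1 y + 1 - π y).det.re < Real.exp (u y) := by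
      obtain ⟨E, l, q1, q2, q3, q4, q5, q6, q7, q8⟩ := hpt y hy.1
      rw [q8, q4, dg_det q2, Fin.prod_cons, one_mul]
      simp only [add_zero]
      exact not_le.1 fun h => hu.2 y hy.1 (X.d1_good hy.1 (Real.exp_pos _) q2 q3 (q4 ▸ (hπ y hy.1).2.2.2.1)
        (q6 ▸ hHT y hy.1) h)
    filter_upwards [eventually_nhdsWithin_iff.1
      ((c1 (0, y) ⟨trivial, hy.1⟩).tendsto.eventually_lt (c2 (0, y) ⟨trivial, hy.1⟩).tendsto h0)] with z hz hz'
    exact hz ⟨trivial, hz'⟩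
  obtain ⟨ε, hε, hε'⟩ := Metric.eventually_nhds_iff.1 hev
  refine ⟨ε / 2, half_pos hε, fun κ c hκ hκε hc => ⟨Γ κ c, ⟨fun y hy => ?_,
    (hΓc c).comp (f := fun y => (κ, y)) (by fun_prop) fun y hy => ⟨trivial, hy⟩, hΓh κ c, fun y hy v hv hv0 => ?_,
    huc.add continuousOn_const, fun y hy U hU => ?_⟩, fun y hy v hv => ?_⟩⟩
  · obtain ⟨E, l, -, -, -, -, -, -, -, q8⟩ := hpt y hy
    exact q8 κ c ▸ dg_herm _
  · obtain ⟨E, l, -, -, -, q4, -, -, -, q8⟩ := hpt y hy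
    have hd : ∀ i, 0 < (Fin.cons c fun i => (l i)⁺ + κ : Fin (n + 1) → ℝ) i :=
      Fin.cases hc fun i => add_pos_of_nonneg_of_pos (posPart_nonneg _) hκ
    obtain ⟨i, hi⟩ : ∃ i, (Eᴴ *ᵥ v.ofLp) i ≠ 0 := Function.ne_iff.1 fun (h : Eᴴ *ᵥ v.ofLp = 0) => hv0 (by
      have := (hπ y hy).2.2.2.1 v hv
      rw [q4, dg_one, ← mulVec_mulVec, h, mulVec_zero] at this
      exact (WithLp.ofLp_eq_zero 2).1 this.symm)
    rw [q8, dg_qf]
    exact Finset.sum_pos' (fun i _ => mul_nonneg (hd i).le (sq_nonneg _))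
      ⟨i, Finset.mem_univ _, mul_pos (hd i) (by positivity)⟩
  · have hn : (‖y‖ : ℂ)⁻¹ ≠ 0 := inv_ne_zero (by exact_mod_cast norm_ne_zero_iff.2 hy.1)
    have hy' := X.smul_mem_Y hy hn
    have h1 := hε' (y := κ) (by rw [dist_zero_right, Real.norm_of_nonneg hκ.le]; linarith) _
      ⟨hy', by simp [norm_smul, norm_ne_zero_iff.2 hy.1]⟩ hy'
    rw [hΓh _ _ y hy _ hn, (hπ y hy).2.2.2.2 _ hn, hu.1.2 y hy _ hn] at h1
    obtain ⟨E, l, q1, q2, -, q4, -, -, -, q8⟩ := hpt y hy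
    obtain ⟨S, -, rfl⟩ := q1.exists_mul hy hU
    rw [q8, q4, dg_det q2, Fin.prod_cons, one_mul] at h1
    rw [q8, dg_det' q2, Fin.prod_cons, Real.exp_add, Real.exp_log hc, mul_comm c]
    exact mul_le_mul_of_nonneg_right (mul_le_mul_of_nonneg_right h1.le hc.le) (gram_pos hU.2).le
  · have h1 : qf (H y) v ≤ qf (pp (H y)) v := by
      obtain ⟨E, l, -, -, -, -, -, q6, q7, -⟩ := hpt y hy
      rw [q7, q6, dg_qf, dg_qf]
      exact Finset.sum_le_sum fun i _ => mul_le_mul_of_nonneg_right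
        (Fin.cases le_rfl (fun i => le_posPart _) i) (sq_nonneg _)
    have h2 : qf (π y) v = ‖v‖ ^ 2 := by
      rw [d1_qf_eq _ _ _ ((hπ y hy).2.2.2.1 v hv), inner_self_eq_norm_sq_to_K]
      norm_cast
    have h3 : ‖y‖ ^ 2 * om y v = ‖v‖ ^ 2 - ‖⟪y, v⟫_ℂ‖ ^ 2 / ‖y‖ ^ 2 := by
      have := norm_ne_zero_iff.2 hy.1
      rw [om]
      field_simp
    simp only [Γ, d1_qf_add, d1_qf_smul, d1_qf_sub, d1P_qf, h2]
    rw [mul_add, mul_left_comm, h3, ← hHT y hy v hv]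
    linarith

end Geo

end Crest.Agent.R269
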