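import Crest.Agent.R269.D.Sup

/-!
# Row 269, block D2 (owner helper64): generic affine perturbations, quadratic functions (statements FROZEN)
-/

set_option autoImplicit false
set_option linter.unusedSectionVars false
set_option linter.unusedVariables false

noncomputable section

namespace Crest.Agent.R269.D2

open Set Metric Filter Topology MeasureTheory Matrix
open Crest.AlgGeometry.ProjEmb
open scoped InnerProductSpace ContDiff

/-- Easy Sard.  The complement lies in the image of `U` under `w ↦ (- fderiv G w, fderiv G w w - G w)`, which is `C¹` at the points of `U`,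
hence locally Lipschitz (`ContDiffAt.fderiv_right`, `ContDiffAt.exists_lipschitzOnWith`); `dimH_image_le_of_locally_lipschitzOn`,
`dimH_mono`, `Real.dimH_univ_eq_finrank`, `dense_compl_of_dimH_lt_finrank`; `finrank ((E →L ℝ) × ℝ) = finrank E + 1`. -/
theorem dense_affine {E : Type} [NormedAddCommGroup E] [NormedSpace ℝ E] [FiniteDimensional ℝ E] {G : E → ℝ} {U : Set E}
    (hG : ∀ w ∈ U, ContDiffAt ℝ 2 G w) :
    Dense {p : (E →L[ℝ] ℝ) × ℝ | ∀ w ∈ U, G w + p.1 w + p.2 = 0 → fderiv ℝ G w + p.1 ≠ 0} := by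
  set Φ : E → (E →L[ℝ] ℝ) × ℝ := fun w => (-fderiv ℝ G w, fderiv ℝ G w w - G w) with hΦ
  have hC : ∀ w ∈ U, ContDiffAt ℝ 1 Φ w := by
    intro w hw
    have h1 : ContDiffAt ℝ 1 (fderiv ℝ G) w := (hG w hw).fderiv_right (by norm_num)
    exact h1.neg.prodMk ((h1.clm_apply contDiffAt_id).sub ((hG w hw).of_le (by norm_num)))
  have hd : dimH (Φ '' U) ≤ dimH U := dimH_image_le_of_locally_lipschitzOn fun w hw => by
    obtain ⟨K, t, ht, hl⟩ := (hC w hw).exists_lipschitzOnWith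
    exact ⟨K, t, mem_nhdsWithin_of_mem_nhds ht, hl⟩
  have hlt : dimH (Φ '' U) < Module.finrank ℝ ((E →L[ℝ] ℝ) × ℝ) := by
    refine (hd.trans ((dimH_mono (subset_univ U)).trans (Real.dimH_univ_eq_finrank E).le)).trans_lt ?_
    have h1 : Module.finrank ℝ (E →L[ℝ] ℝ) = Module.finrank ℝ E := by
      rw [← (LinearMap.toContinuousLinearMap (𝕜 := ℝ) (E := E) (F' := ℝ)).finrank_eq]
      exact Subspace.dual_finrank_eq
    rw [Module.finrank_prod, h1, Module.finrank_self]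
    exact_mod_cast Nat.lt_succ_self _
  refine Dense.mono ?_ (dense_compl_of_dimH_lt_finrank hlt)
  intro p hp w hw h1 h2
  refine hp ⟨w, hw, ?_⟩
  have h3 : p.1 = -fderiv ℝ G w := (neg_eq_of_add_eq_zero_right h2).symm
  refine Prod.ext h3.symm ?_
  simp only [hΦ]
  rw [h3] at h1
  simp only [_root_.neg_apply] at h1
  linarith

/-- Parameters. -/
abbrev PM (m : ℕ) : Type := Fin m → Fin m → ℂ

/-- `Re ⟪y, H y⟫ / ‖y‖²`. -/
def phi {m : ℕ} (H : PM m) (y : Cn m) : ℝ := qf (Matrix.of H) y / ‖y‖ ^ 2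

theorem phi_add {m : ℕ} (H H' : PM m) (y : Cn m) : phi (H + H') y = phi H y + phi H' y := by
  have : Matrix.of (H + H') = Matrix.of H + Matrix.of H' := rfl
  simp only [phi, qf, this, add_mulVec, dotProduct_add, Complex.add_re, add_div]

theorem phi_smul {m : ℕ} (s : ℝ) (H : PM m) (y : Cn m) : phi (s • H) y = s * phi H y := by
  have : Matrix.of (s • H) = (s : ℂ) • Matrix.of H := by ext i j; simp
  simp only [phi, qf, this, smul_mulVec, dotProduct_smul, smul_eq_mul, Complex.re_ofReal_mul, mul_div_assoc]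

theorem phi_hom {m : ℕ} (H : PM m) (y : Cn m) {t : ℂ} (ht : t ≠ 0) : phi H (t • y) = phi H y := by
  have h1 : qf (Matrix.of H) (t • y) = ‖t‖ ^ 2 * qf (Matrix.of H) y := by
    simp only [qf, WithLp.ofLp_smul, star_smul, mulVec_smul, dotProduct_smul, smul_dotProduct, smul_eq_mul, ← mul_assoc]
    rw [show t * star t = ((‖t‖ ^ 2 : ℝ) : ℂ) by rw [Complex.star_def, Complex.mul_conj, Complex.normSq_eq_norm_sq],
      Complex.re_ofReal_mul]
  have ht' : ‖t‖ ≠ 0 := norm_ne_zero_iff.2 ht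
  rw [phi, phi, h1, norm_smul, mul_pow, mul_div_mul_left _ _ (pow_ne_zero 2 ht')]

/-- `qf (of H) y = re (∑ i j, conj (y i) * (H i j * y j))`; `Complex.reCLM`, `Complex.conjCLE`, `contDiff_norm_sq ℂ`. -/
theorem contDiffAt_phi {m : ℕ} (H : PM m) {y : Cn m} (hy : y ≠ 0) :
    ContDiffAt ℝ 2 (fun p : PM m × Cn m => phi p.1 p.2) (H, y) := by
  have hy' : ∀ i, ContDiff ℝ 2 fun p : PM m × Cn m => p.2 i := fun i =>
    ((EuclideanSpace.proj (𝕜 := ℂ) i).restrictScalars ℝ).contDiff.comp contDiff_snd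
  have h1 : ContDiff ℝ 2 fun p : PM m × Cn m => qf (Matrix.of p.1) p.2 := by
    simp only [qf, dotProduct, mulVec, Matrix.of_apply, Pi.star_apply]
    refine Complex.reCLM.contDiff.comp (ContDiff.sum fun i _ => ContDiff.mul ?_ (ContDiff.sum fun j _ => ContDiff.mul ?_ (hy' j)))
    · exact Complex.conjCLE.contDiff.comp (hy' i)
    · exact (contDiff_apply_apply ℝ ℂ i j).comp contDiff_fst
  exact h1.contDiffAt.div ((contDiff_norm_sq ℂ).comp contDiff_snd).contDiffAt (pow_ne_zero 2 (norm_ne_zero_iff.2 hy))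

/-- The affine functions of the chart: `L p i j = conj (Λ 0 i) * (p.2 * Λ 0 j + ∑ k, α k * Λ k.succ j)`,
`α k = p.1 e_k - I * p.1 (I • e_k)`; `w = ∑ k, (re (w k) • e_k + im (w k) • I • e_k)`. -/
theorem exists_affine {N n : ℕ} (Λ : Matrix (Fin (n + 1)) (Fin (N + 1)) ℂ) :
    ∃ L : (Cn n →L[ℝ] ℝ) × ℝ → PM (N + 1), Continuous L ∧ L 0 = 0 ∧
      ∀ p y, ell Λ y = 1 → qf (Matrix.of (L p)) y = p.1 (zeta Λ y) + p.2 := by
  set α : (Cn n →L[ℝ] ℝ) → Fin n → ℂ := fun a k =>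
    (a (EuclideanSpace.single k 1) : ℂ) - Complex.I * a (EuclideanSpace.single k Complex.I) with hα
  refine ⟨fun p i j => star (Λ 0 i) * (p.2 * Λ 0 j + ∑ k, α p.1 k * Λ k.succ j), ?_, ?_, ?_⟩
  · refine continuous_pi fun i => continuous_pi fun j => ?_
    simp only [hα]
    fun_prop
  · funext i j
    simp [hα]
  · intro p y hy
    have hz : ∀ k, (Λ *ᵥ y.ofLp) k.succ = zeta Λ y k := fun k => by simp [zeta, hy]
    have h1 : ∀ i, (Matrix.of (fun i j => star (Λ 0 i) * (p.2 * Λ 0 j + ∑ k, α p.1 k * Λ k.succ j)) *ᵥ y.ofLp) i =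
        star (Λ 0 i) * (p.2 + ∑ k, α p.1 k * zeta Λ y k) := by
      intro i
      have e0 : ∑ j, Λ 0 j * y.ofLp j = 1 := hy
      have ek : ∀ k : Fin n, ∑ j, Λ k.succ j * y.ofLp j = zeta Λ y k := hz
      simp only [mulVec, dotProduct, Matrix.of_apply, mul_assoc, ← Finset.mul_sum, add_mul, Finset.sum_add_distrib,
        Finset.sum_mul, e0, mul_one]
      rw [Finset.sum_comm]
      simp only [← Finset.mul_sum, ek]
    have h2 : ∑ i, star (y.ofLp i) * star (Λ 0 i) = 1 := by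
      have e0 : ∑ j, Λ 0 j * y.ofLp j = 1 := hy
      have := congrArg star e0
      rw [star_sum, star_one] at this
      rw [← this]
      exact Finset.sum_congr rfl fun i _ => by rw [star_mul]
    have h3 : ∀ w : Cn n, (∑ k, α p.1 k * w k).re = p.1 w := by
      intro w
      have hw : w = ∑ k, ((w k).re • EuclideanSpace.single k (1 : ℂ) + (w k).im • EuclideanSpace.single k Complex.I) := by
        ext i
        simp [Finset.sum_apply, Pi.single_apply, Finset.sum_add_distrib]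
      conv_rhs => rw [hw]
      rw [map_sum, Complex.re_sum]
      refine Finset.sum_congr rfl fun k _ => ?_
      simp [hα, mul_comm]
    simp only [qf, dotProduct, Pi.star_apply, h1, ← mul_assoc, ← Finset.sum_mul, h2, one_mul, Complex.add_re,
      Complex.ofReal_re, h3, add_comm]

/-- `sin²` of the Fubini–Study distance. -/
def fsd {m : ℕ} (y₀ y : Cn m) : ℝ := 1 - ‖⟪y₀, y⟫_ℂ‖ ^ 2 / (‖y₀‖ ^ 2 * ‖y‖ ^ 2)

theorem fsd_self {m : ℕ} {y₀ : Cn m} (h : y₀ ≠ 0) : fsd y₀ y₀ = 0 := by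
  have : ‖y₀‖ ≠ 0 := norm_ne_zero_iff.2 h
  rw [fsd, inner_self_eq_norm_sq_to_K]
  simp only [Complex.coe_algebraMap, norm_pow, Complex.norm_real, norm_norm]
  field_simp
  ring

theorem fsd_nonneg {m : ℕ} (y₀ y : Cn m) : 0 ≤ fsd y₀ y := by
  rw [fsd, sub_nonneg]
  refine div_le_one_of_le₀ ?_ (by positivity)
  rw [← mul_pow]
  exact pow_le_pow_left₀ (norm_nonneg _) (norm_inner_le_norm _ _) 2

theorem fsd_smul {m : ℕ} (y₀ y : Cn m) {t : ℂ} (ht : t ≠ 0) : fsd y₀ (t • y) = fsd y₀ y := by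
  have ht' : ‖t‖ ≠ 0 := norm_ne_zero_iff.2 ht
  rw [fsd, fsd, inner_smul_right, norm_mul, norm_smul, mul_pow, mul_pow, mul_left_comm,
    mul_div_mul_left _ _ (pow_ne_zero 2 ht')]

theorem contDiffAt_fsd {m : ℕ} {y₀ y : Cn m} (h₀ : y₀ ≠ 0) (hy : y ≠ 0) : ContDiffAt ℝ 2 (fsd y₀) y := by
  unfold fsd
  refine contDiffAt_const.sub (ContDiffAt.div ?_ (contDiffAt_const.mul (contDiff_norm_sq ℂ).contDiffAt) ?_)
  · exact ((contDiff_norm_sq ℂ).comp ((innerSL ℂ y₀).restrictScalars ℝ).contDiff).contDiffAt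
  · exact mul_ne_zero (pow_ne_zero 2 (norm_ne_zero_iff.2 h₀)) (pow_ne_zero 2 (norm_ne_zero_iff.2 hy))

/-- Conic neighbourhoods: for `t = ⟪x, y₀⟫ / ‖x‖²`, `‖t • x - y₀‖² = ‖y₀‖² * fsd y₀ x`, and `t ≠ 0` if `fsd y₀ x < 1`. -/
theorem cone_nhds {m : ℕ} {y₀ : Cn m} (h₀ : y₀ ≠ 0) {P : Cn m → Prop} (h : ∀ᶠ x in 𝓝 y₀, P x)
    (hP : ∀ x, ∀ t : ℂ, t ≠ 0 → P (t • x) → P x) : ∃ r : ℝ, 0 < r ∧ ∀ x, x ≠ 0 → fsd y₀ x < r → P x := by
  obtain ⟨ε, hε, hb⟩ := Metric.eventually_nhds_iff.1 h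
  have hn : 0 < ‖y₀‖ := norm_pos_iff.2 h₀
  refine ⟨min 1 (ε ^ 2 / ‖y₀‖ ^ 2), by positivity, fun x hx hlt => ?_⟩
  have hxn : 0 < ‖x‖ := norm_pos_iff.2 hx
  have h1 : fsd y₀ x < 1 := hlt.trans_le (min_le_left _ _)
  have h2 : fsd y₀ x < ε ^ 2 / ‖y₀‖ ^ 2 := hlt.trans_le (min_le_right _ _)
  have hi : ⟪x, y₀⟫_ℂ ≠ 0 := by
    intro h0
    rw [fsd, norm_inner_symm, h0] at h1
    simp at h1
  set t : ℂ := ⟪x, y₀⟫_ℂ / ((‖x‖ ^ 2 : ℝ) : ℂ) with ht
  have ht0 : t ≠ 0 := div_ne_zero hi (by exact_mod_cast (pow_pos hxn 2).ne')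
  refine hP x t ht0 (hb ?_)
  rw [dist_eq_norm]
  have h3 : ‖t • x - y₀‖ ^ 2 = ‖y₀‖ ^ 2 * fsd y₀ x := by
    rw [@norm_sub_sq ℂ, inner_smul_left, norm_smul, fsd, norm_inner_symm y₀ x]
    have e1 : RCLike.re ((starRingEnd ℂ) t * ⟪x, y₀⟫_ℂ) = ‖⟪x, y₀⟫_ℂ‖ ^ 2 / ‖x‖ ^ 2 := by
      rw [ht, map_div₀, Complex.conj_ofReal, div_mul_eq_mul_div, Complex.conj_mul', ← Complex.ofReal_pow,
        ← Complex.ofReal_div]
      exact Complex.ofReal_re _
    have e2 : ‖t‖ = ‖⟪x, y₀⟫_ℂ‖ / ‖x‖ ^ 2 := by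
      rw [ht, norm_div, Complex.norm_real, Real.norm_of_nonneg (by positivity)]
    rw [e1, e2]
    field_simp
    ring
  rw [lt_div_iff₀ (by positivity)] at h2
  exact lt_of_pow_lt_pow_left₀ 2 hε.le (by linarith)

end Crest.Agent.R269.D2
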