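import Crest.Agent.R269.D.Sup

/-!
# Row 269, block D2 (owner helper64): elementary properties of `Good` (statements FROZEN)
-/

set_option autoImplicit false
set_option linter.unusedSectionVars false
set_option linter.unusedVariables false

noncomputable section

namespace Crest.Agent.R269.D2

open Set Metric Filter Topology MeasureTheory Matrix
open Crest.AlgGeometry.ProjEmb
open scoped InnerProductSpace ContDiff ComplexOrder

variable {N n : ℕ} {X : Geo N n}

/-- `Uᴴ U` is positive semidefinite (`Matrix.posSemidef_conjTranspose_mul_self`, `PosSemidef.det_nonneg`). -/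
theorem gv_nonneg {m r : ℕ} (y : Cn m) (v : Fin r → Cn m) : 0 ≤ gv y v := by
  unfold gv gram
  refine div_nonneg ?_ (by positivity)
  exact (Complex.nonneg_iff.1 (Matrix.posSemidef_conjTranspose_mul_self _).det_nonneg).1

/-- `colM (cons (t • y) (t • v)) = t • colM (cons y v)`, `Matrix.det_smul` (or `gram_mul` with `S = t • 1`). -/
theorem gv_smul_smul {m r : ℕ} (y : Cn m) (v : Fin r → Cn m) {t : ℂ} (ht : t ≠ 0) :
    gv (t • y) (fun j => t • v j) = ‖t‖ ^ (2 * r) * gv y v := by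
  have h1 : colM (Fin.cons (t • y) (fun j => t • v j) : Fin (r + 1) → Cn m) =
      colM (Fin.cons y v : Fin (r + 1) → Cn m) * (t • (1 : Matrix (Fin (r + 1)) (Fin (r + 1)) ℂ)) := by
    rw [Matrix.mul_smul, Matrix.mul_one]
    ext i a
    refine Fin.cases ?_ (fun j => ?_) a <;> simp [colM]
  have ht' : ‖t‖ ≠ 0 := norm_ne_zero_iff.2 ht
  unfold gv
  rw [h1, gram_mul, Matrix.det_smul, Matrix.det_one, mul_one, Fintype.card_fin, norm_pow, norm_smul]
  by_cases hy : ‖y‖ = 0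
  · simp [hy]
  · field_simp
    ring

theorem continuousAt_gv {m r : ℕ} {y : Cn m} (hy : y ≠ 0) (v : Fin r → Cn m) :
    ContinuousAt (fun p : Cn m × (Fin r → Cn m) => gv p.1 p.2) (y, v) := by
  unfold gv gram
  refine ContinuousAt.div ?_ (by fun_prop) (pow_ne_zero 2 (norm_ne_zero_iff.2 hy))
  have hc : Continuous fun p : Cn m × (Fin r → Cn m) => colM (Fin.cons p.1 p.2 : Fin (r + 1) → Cn m) := by
    refine continuous_matrix fun i a => ?_
    refine Fin.cases ?_ (fun j => ?_) a <;> simp only [colM, Fin.cons_zero, Fin.cons_succ] <;> fun_prop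
  exact (Complex.continuous_re.comp ((hc.matrix_conjTranspose.matrix_mul hc).matrix_det)).continuousAt

theorem good_mono {a b a' b' c c' : ℝ} {q q' : Cn (N + 1) → ℝ} {y : Cn (N + 1)} (h : X.Good a b q y c)
    (he : ∀ v ∈ X.T y, X.eta a b q y v ≤ X.eta a' b' q' y v) (hc : c' ≤ c) : X.Good a' b' q' y c' := by
  intro v hv
  obtain ⟨h1, h2⟩ := h v hv
  have h3 : ∑ j, X.eta a b q y (v j) ≤ ∑ j, X.eta a' b' q' y (v j) := Finset.sum_le_sum fun j _ => he _ (hv j)
  refine ⟨h1.trans h3, (mul_le_mul_of_nonneg_right hc (gv_nonneg y v)).trans (h2.trans ?_)⟩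
  gcongr

/-- Test `h` with the frame `t • v j` (`T_smul`, `eta_smul_smul`, `gv_smul_smul`). -/
theorem good_smul {a b c : ℝ} {q : Cn (N + 1) → ℝ} {y : Cn (N + 1)} (hy : y ∈ X.Y) {t : ℂ} (ht : t ≠ 0)
    (hq : ContDiffAt ℝ 2 q y) (hq' : ContDiffAt ℝ 2 q (t • y)) (h0 : X.Hom0 q) (h : X.Good a b q (t • y) c) :
    X.Good a b q y c := by
  intro v hv
  obtain ⟨h1, h2⟩ := h (fun j => t • v j) fun j => by rw [X.T_smul y ht]; exact Submodule.smul_mem _ _ (hv j)
  have h3 : ∑ j, X.eta a b q (t • y) (t • v j) = ∑ j, X.eta a b q y (v j) :=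
    Finset.sum_congr rfl fun j _ => X.eta_smul_smul a b hy ht hq hq' h0 (hv j)
  rw [h3] at h1 h2
  refine ⟨h1, ?_⟩
  rw [gv_smul_smul y v ht, norm_smul] at h2
  have hp : 0 < ‖t‖ ^ (2 * n) := pow_pos (norm_pos_iff.2 ht) _
  refine le_of_mul_le_mul_left ?_ hp
  calc ‖t‖ ^ (2 * n) * (c * gv y v) = c * (‖t‖ ^ (2 * n) * gv y v) := by ring
    _ ≤ _ := h2
    _ = _ := by rw [pow_mul, ← mul_pow]; congr 1; ring

/-- Take all `v j = v` (`X.npos`). -/
theorem not_good_of_neg {a b c : ℝ} {q : Cn (N + 1) → ℝ} {y v : Cn (N + 1)} (hv : v ∈ X.T y) (h : X.eta a b q y v < 0) :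
    ¬ X.Good a b q y c := by
  intro hG
  have h1 := (hG (fun _ => v) fun _ => hv).1
  simp only [Finset.sum_const, Finset.card_univ, Fintype.card_fin, nsmul_eq_mul] at h1
  have h2 : (0 : ℝ) < n := by exact_mod_cast X.npos
  nlinarith

theorem eta_add_b (a b β : ℝ) (q : Cn (N + 1) → ℝ) (y v : Cn (N + 1)) :
    X.eta a (b + β) q y v = X.eta a b q y v + β * om y v := by
  simp only [Geo.eta]; ring

/-- `¬ Good` is open.  With the witness `v` and `P` of `exists_local_proj` use the frame `P x (v j)`; the functions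
`(β, x) ↦ ∑ j, eta a (b + β) q x (P x (v j))` and `c (β, x) * gv x (P x (v ·))` are continuous within `univ ×ˢ Y` at `(0, y)`
(`eta_add_b`, `continuousWithinAt_eta` applied also to `om = eta 0 1 0`, `continuousAt_gv`); then `eventually_nhdsWithin_iff`. -/
theorem eventually_not_good {a b : ℝ} {q : Cn (N + 1) → ℝ} {y : Cn (N + 1)} (hy : y ∈ X.Y) (hq : ContDiffAt ℝ 2 q y)
    {c : ℝ × Cn (N + 1) → ℝ} (hc : ContinuousAt c (0, y)) (h : ¬ X.Good a b q y (c (0, y))) :
    ∀ᶠ p : ℝ × Cn (N + 1) in 𝓝 (0, y), p.2 ∈ X.Y → ¬ X.Good a (b + p.1) q p.2 (c p) := by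
  obtain ⟨P, hP, hPe⟩ := X.exists_local_proj hy
  have hPy := hPe.self_of_nhdsWithin hy
  unfold Geo.Good at h
  push Not at h
  obtain ⟨v, hv, h⟩ := h
  have hPv : ∀ j, P y (v j) = v j := fun j => hPy.2 _ (hv j)
  have hPc : ∀ j, ContinuousAt (fun p : ℝ × Cn (N + 1) => P p.2 (v j)) (0, y) := fun j =>
    (ContinuousAt.comp (g := P) hP.continuousAt continuousAt_snd).clm_apply continuousAt_const
  have hpair : ∀ j, ContinuousWithinAt (fun p : ℝ × Cn (N + 1) => (p.2, P p.2 (v j))) (univ ×ˢ X.Y) (0, y) := fun j =>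
    (continuousAt_snd.prodMk (hPc j)).continuousWithinAt
  have hcomp : ∀ (a b : ℝ) (q : Cn (N + 1) → ℝ), ContDiffAt ℝ 2 q y → ∀ j,
      ContinuousWithinAt (fun p : ℝ × Cn (N + 1) => X.eta a b q p.2 (P p.2 (v j))) (univ ×ˢ X.Y) (0, y) := by
    intro a b q hq j
    have h1 := X.continuousWithinAt_eta a b hy hq (P y (v j))
    have h2 : MapsTo (fun p : ℝ × Cn (N + 1) => (p.2, P p.2 (v j))) (univ ×ˢ X.Y) (X.Y ×ˢ univ) :=
      fun p hp => ⟨hp.2, trivial⟩
    have h3 := ContinuousWithinAt.comp (f := fun p : ℝ × Cn (N + 1) => (p.2, P p.2 (v j))) (x := (0, y)) h1 (hpair j) h2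
    exact h3
  have hS : ContinuousWithinAt (fun p : ℝ × Cn (N + 1) => ∑ j, X.eta a (b + p.1) q p.2 (P p.2 (v j))) (univ ×ˢ X.Y) (0, y) := by
    refine tendsto_finsetSum _ fun j _ => ?_
    have h1 := (hcomp a b q hq j).add (continuousWithinAt_fst.mul (hcomp 0 1 (fun _ => 0) contDiffAt_const j))
    refine ContinuousWithinAt.congr h1 (fun p _ => ?_) ?_ <;> simp [Geo.eta, levi_const] <;> ring
  have hG : ContinuousWithinAt (fun p : ℝ × Cn (N + 1) => c p * gv p.2 fun j => P p.2 (v j)) (univ ×ˢ X.Y) (0, y) := by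
    refine (hc.mul ?_).continuousWithinAt
    exact ContinuousAt.comp (g := fun p : Cn (N + 1) × (Fin n → Cn (N + 1)) => gv p.1 p.2)
      (f := fun p : ℝ × Cn (N + 1) => (p.2, fun j => P p.2 (v j))) (continuousAt_gv hy.1 _)
      (continuousAt_snd.prodMk (continuousAt_pi.2 hPc))
  have hR : ContinuousWithinAt (fun p : ℝ × Cn (N + 1) =>
      (‖p.2‖ ^ 2 * (∑ j, X.eta a (b + p.1) q p.2 (P p.2 (v j))) / n) ^ n) (univ ×ˢ X.Y) (0, y) :=
    (((continuousWithinAt_snd.norm.pow 2).mul hS).div_const _).pow n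
  have hT : ∀ᶠ p : ℝ × Cn (N + 1) in 𝓝[univ ×ˢ X.Y] (0, y), ∀ j, P p.2 (v j) ∈ X.T p.2 := by
    have : Tendsto (fun p : ℝ × Cn (N + 1) => p.2) (𝓝[univ ×ˢ X.Y] (0, y)) (𝓝[X.Y] y) :=
      tendsto_nhdsWithin_iff.2 ⟨continuousWithinAt_snd, eventually_nhdsWithin_of_forall fun p hp => hp.2⟩
    exact (this.eventually hPe).mono fun p hp j => hp.1 _
  have key : ∀ᶠ p : ℝ × Cn (N + 1) in 𝓝[univ ×ˢ X.Y] (0, y), ¬ X.Good a (b + p.1) q p.2 (c p) := by
    by_cases h0 : 0 ≤ ∑ j, X.eta a b q y (v j)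
    · have h1 := hR.eventually_lt hG (by simpa only [hPv, add_zero] using h h0)
      filter_upwards [h1, hT] with p hp hpT hg
      exact absurd (hg _ hpT).2 (not_le.2 hp)
    · have h1 := hS.eventually_lt continuousWithinAt_const (g := fun _ => (0 : ℝ)) (by simpa only [hPv, add_zero, not_le] using h0)
      filter_upwards [h1, hT] with p hp hpT hg
      exact absurd (hg _ hpT).1 (not_le.2 hp)
  exact (eventually_nhdsWithin_iff.1 key).mono fun p hp h2 => hp ⟨trivial, h2⟩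

/-- Every point of `Y` is a multiple of a unit vector of `Y`. -/
theorem exists_unit {y : Cn (N + 1)} (hy : y ∈ X.Y) : ∃ x ∈ X.Y ∩ sphere 0 1, ∃ t : ℂ, t ≠ 0 ∧ y = t • x := by
  have h0 : (‖y‖ : ℂ) ≠ 0 := by exact_mod_cast norm_ne_zero_iff.2 hy.1
  refine ⟨(‖y‖ : ℂ)⁻¹ • y, ⟨X.smul_mem_Y hy (inv_ne_zero h0), ?_⟩, ‖y‖, h0, by rw [smul_smul, mul_inv_cancel₀ h0, one_smul]⟩
  rw [mem_sphere_zero_iff_norm, norm_smul, norm_inv, Complex.norm_real, norm_norm,
    inv_mul_cancel₀ (norm_ne_zero_iff.2 hy.1)]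

/-- It suffices to check the supersolution property on unit vectors (`good_smul`). -/
theorem sup_of_unit {a b : ℝ} {u : Cn (N + 1) → ℝ} (hu : X.Adm u)
    (h : ∀ y ∈ X.Y ∩ sphere 0 1, ¬ X.Good a b u y (Real.exp (u y))) : X.Sup a b u := by
  refine ⟨hu, fun y hy hG => ?_⟩
  obtain ⟨x, hx, t, ht, rfl⟩ := exists_unit hy
  rw [hu.2 x hx.1 t ht] at hG
  exact h x hx (good_smul hx.1 ht (hu.1 x hx.1.1) (hu.1 _ hy.1) hu.2 hG)

/-- The margin.  `IsCompact.eventually_forall_of_forall_eventually` on `Y ∩ sphere 0 1` (`isCompact_Y1`) with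
`P β x := x ∈ Y → g x ≤ β → ¬ Good a (b + β) u x (exp (u x - β))`: at a point with `g y ≤ 0` use `eventually_not_good`, at a point with
`0 < g y` the hypothesis `g x ≤ β` fails nearby.  Pick `β > 0`, then scale (`exists_unit`, `good_smul`). -/
theorem margin {a b : ℝ} {u g : Cn (N + 1) → ℝ} (hu : X.Adm u) (hg : X.Adm g)
    (h : ∀ y ∈ X.Y, g y ≤ 0 → ¬ X.Good a b u y (Real.exp (u y))) :
    ∃ β : ℝ, 0 < β ∧ ∀ y ∈ X.Y, g y ≤ β → ¬ X.Good a (b + β) u y (Real.exp (u y - β)) := by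
  have key := X.isCompact_Y1.eventually_forall_of_forall_eventually (x₀ := (0 : ℝ))
    (P := fun β x => x ∈ X.Y → g x ≤ β → ¬ X.Good a (b + β) u x (Real.exp (u x - β))) (by
      intro y hy
      by_cases hg0 : g y ≤ 0
      · have hc : ContinuousAt (fun p : ℝ × Cn (N + 1) => Real.exp (u p.2 - p.1)) (0, y) := by
          have h1 : ContinuousAt (fun p : ℝ × Cn (N + 1) => u p.2) (0, y) :=
            ContinuousAt.comp (g := u) (hu.1 y hy.1.1).continuousAt continuousAt_snd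
          exact Real.continuous_exp.continuousAt.comp (h1.sub continuousAt_fst)
        have := eventually_not_good (a := a) (b := b) hy.1 (hu.1 y hy.1.1) hc (by simpa using h y hy.1 hg0)
        exact this.mono fun p hp h1 _ => hp h1
      · have h1 : ContinuousAt (fun p : ℝ × Cn (N + 1) => g p.2) (0, y) :=
          ContinuousAt.comp (g := g) (hg.1 y hy.1.1).continuousAt continuousAt_snd
        have := continuousAt_fst.eventually_lt h1 (not_le.1 hg0)
        exact this.mono fun p hp _ h2 => absurd h2 (not_le.2 hp))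
  have h2 : ∀ᶠ β in 𝓝[>] (0 : ℝ), _ := mem_nhdsWithin_of_mem_nhds key
  obtain ⟨β, hβ, hβ0⟩ := (h2.and self_mem_nhdsWithin).exists
  refine ⟨β, hβ0, fun y hy hle hG => ?_⟩
  obtain ⟨x, hx, t, ht, rfl⟩ := exists_unit hy
  rw [hu.2 x hx.1 t ht] at hG
  rw [hg.2 x hx.1 t ht] at hle
  exact hβ x hx hx.1 hle (good_smul hx.1 ht (hu.1 x hx.1.1) (hu.1 _ hy.1) hu.2 hG)

/-- In a chart `y = t • σ w` the frame `∂ⱼ σ` has `gv > 0` (`Chart.isFrame`, `gram_pos`, `isFrame_colM`, `gv_smul_smul`). -/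
theorem exists_gv_pos {y : Cn (N + 1)} (hy : y ∈ X.Y) : ∃ v : Fin n → Cn (N + 1), (∀ j, v j ∈ X.T y) ∧ 0 < gv y v := by
  obtain ⟨C, w, t, hw, ht, rfl⟩ := Geo.exists_chart_at hy
  have hF := C.isFrame hw
  have hT := (X.isFrame_colM.1 hF).1
  refine ⟨fun j => t • fderiv ℂ C.σ w (EuclideanSpace.single j 1), fun j => ?_, ?_⟩
  · rw [X.T_smul _ ht]
    exact Submodule.smul_mem _ _ (hT j.succ)
  · rw [gv_smul_smul _ _ ht]
    refine mul_pos (pow_pos (norm_pos_iff.2 ht) _) (div_pos (gram_pos hF.2) ?_)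
    exact pow_pos (norm_pos_iff.2 (C.mem hw).1) 2

/-- Large constants are supersolutions.  At each `y` some `c` is not `Good` for `q = 0` (`exists_gv_pos`); by `eventually_not_good`
(restricted to `β = 0`) the same `c` works nearby; finite subcover of `Y ∩ sphere`, `good_mono`, `levi_const`, `sup_of_unit`. -/
theorem sup_const (X : Geo N n) (a b : ℝ) : ∃ M : ℝ, X.Sup a b fun _ => M := by
  have key : ∃ c : ℝ, ∀ x ∈ X.Y ∩ sphere 0 1, x ∈ X.Y → ¬ X.Good a b (fun _ => 0) x c := by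
    refine X.isCompact_Y1.induction_on (p := fun s => ∃ c : ℝ, ∀ x ∈ s, x ∈ X.Y → ¬ X.Good a b (fun _ => 0) x c) ⟨0, by simp⟩
      ?_ ?_ ?_
    · rintro s t hst ⟨c, hc⟩
      exact ⟨c, fun x hx => hc x (hst hx)⟩
    · rintro s t ⟨c, hc⟩ ⟨c', hc'⟩
      refine ⟨max c c', ?_⟩
      rintro x (hx | hx) hY hG
      · exact hc x hx hY (good_mono hG (fun _ _ => le_rfl) (le_max_left _ _))
      · exact hc' x hx hY (good_mono hG (fun _ _ => le_rfl) (le_max_right _ _))
    · intro y hy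
      obtain ⟨v, hv, hpos⟩ := exists_gv_pos hy.1
      set c := ((‖y‖ ^ 2 * (∑ j, X.eta a b (fun _ => 0) y (v j)) / n) ^ n + 1) / gv y v with hc
      have hn : ¬ X.Good a b (fun _ => 0) y c := fun hG => by
        have := (hG v hv).2
        rw [hc, div_mul_cancel₀ _ hpos.ne'] at this
        linarith
      have h1 := eventually_not_good (a := a) (b := b) (c := fun _ => c) hy.1 contDiffAt_const continuousAt_const hn
      have h2 : Tendsto (fun x : Cn (N + 1) => ((0 : ℝ), x)) (𝓝 y) (𝓝 (0, y)) :=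
        (continuous_const.prodMk continuous_id).continuousAt
      refine ⟨_, mem_nhdsWithin_of_mem_nhds (h2.eventually h1), c, fun x hx => ?_⟩
      simpa using hx
  obtain ⟨c, hc⟩ := key
  refine ⟨c, sup_of_unit ⟨fun _ _ => contDiffAt_const, fun _ _ _ _ => rfl⟩ fun y hy hG => ?_⟩
  refine hc y hy hy.1 (good_mono hG (fun v _ => ?_) (by have := Real.add_one_le_exp c; linarith))
  simp only [Geo.eta, levi_const, le_refl]

end Crest.Agent.R269.D2
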