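import Crest.Agent.R269.D.D2Flat

/-!
# Row 269, block D2 (owner helper64): transversality by a small perturbation (statements FROZEN)
-/

set_option autoImplicit false
set_option linter.unusedSectionVars false
set_option linter.unusedVariables false

noncomputable section

namespace Crest.Agent.R269.D2

open Set Metric Filter Topology MeasureTheory Matrix
open Crest.AlgGeometry.ProjEmb
open scoped InnerProductSpace ContDiff

variable {N n : ℕ} {X : Geo N n}

theorem adm_phi (X : Geo N n) (H : PM (N + 1)) : X.Adm (phi H) := by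
  refine ⟨fun y hy => ?_, fun y _ t ht => phi_hom H y ht⟩
  exact (contDiffAt_phi H hy).comp y (f := fun x : Cn (N + 1) => (H, x)) (contDiffAt_const.prodMk contDiffAt_id)

/-- Expand `H` in a real basis `bₖ` (`Module.finBasis ℝ _`; `phi` is linear in `H`): `phi H = ∑ cₖ(H) phi bₖ` with continuous linear
coordinates `cₖ`; `Adm.bdd`, `eta_abs_le 0 0`, `levi_sum`, `levi_const_mul`; the set `∑ |cₖ H| (Bₖ + Cₖ) < β` is a neighbourhood of `0`. -/
theorem phi_small (X : Geo N n) {β : ℝ} (hβ : 0 < β) : ∀ᶠ H in 𝓝 (0 : PM (N + 1)), ∀ y ∈ X.Y, |phi H y| ≤ β ∧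
    ∀ v ∈ X.T y, |levi (phi H) y v| ≤ β * om y v := by
  classical
  set bs := Module.finBasis ℝ (PM (N + 1)) with hbs
  choose B hB using fun k => (adm_phi X (bs k)).bdd
  choose C hC0 hC using fun k => X.eta_abs_le 0 0 (adm_phi X (bs k))
  have hsum : ∀ (s : Finset (Fin (Module.finrank ℝ (PM (N + 1))))) (c : _ → ℝ) (y : Cn (N + 1)),
      phi (∑ k ∈ s, c k • bs k) y = ∑ k ∈ s, c k * phi (bs k) y := by
    intro s c y
    induction s using Finset.induction_on with
    | empty => simpa using phi_smul 0 (0 : PM (N + 1)) y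
    | insert k s hk ih => rw [Finset.sum_insert hk, Finset.sum_insert hk, phi_add, phi_smul, ih]
  have hcont : Continuous fun H : PM (N + 1) => ∑ k, |bs.repr H k| * (|B k| + C k) :=
    continuous_finsetSum _ fun k _ => ((bs.coord k).continuous_of_finiteDimensional.abs).mul continuous_const
  have hev : ∀ᶠ H in 𝓝 (0 : PM (N + 1)), ∑ k, |bs.repr H k| * (|B k| + C k) < β :=
    hcont.continuousAt.eventually_lt continuousAt_const (by simpa using hβ)
  filter_upwards [hev] with H hH y hy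
  have he : phi H = fun y => ∑ k, bs.repr H k * phi (bs k) y := by
    funext y; rw [← hsum, bs.sum_repr]
  refine ⟨?_, fun v hv => ?_⟩
  · rw [he]
    refine (Finset.abs_sum_le_sum_abs _ _).trans ((Finset.sum_le_sum fun k _ => ?_).trans hH.le)
    rw [abs_mul]
    refine mul_le_mul_of_nonneg_left ?_ (abs_nonneg _)
    have := hB k y hy; have := le_abs_self (B k); have := hC0 k
    linarith
  · rw [he, levi_sum _ (f := fun k y => bs.repr H k * phi (bs k) y)
      (fun k _ => contDiffAt_const.mul ((adm_phi X (bs k)).1 y hy.1))]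
    refine (Finset.abs_sum_le_sum_abs _ _).trans (le_trans ?_ (mul_le_mul_of_nonneg_right hH.le (om_nonneg y v)))
    rw [Finset.sum_mul]
    refine Finset.sum_le_sum fun k _ => ?_
    rw [levi_const_mul ((adm_phi X (bs k)).1 y hy.1), abs_mul, mul_assoc]
    refine mul_le_mul_of_nonneg_left ?_ (abs_nonneg _)
    have h1 := hC k y hy v hv
    simp only [Geo.eta, zero_mul, zero_add] at h1
    nlinarith [mul_nonneg (abs_nonneg (B k)) (om_nonneg y v)]

/-- Parameters for which `g + phi H` has no critical zero on `σ K`. -/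
def GoodH (C : X.Chart) (K : Set (Cn n)) (g : Cn (N + 1) → ℝ) : Set (PM (N + 1)) :=
  {H | ∀ w ∈ K, g (C.σ w) + phi H (C.σ w) = 0 → fderiv ℝ (fun x => g (C.σ x) + phi H (C.σ x)) w ≠ 0}

/-- `IsCompact.eventually_forall_of_forall_eventually`; `F (H, w) = g (σ w) + phi H (σ w)` is `C²` at `(H₀, w)` (`contDiffAt_phi`, `C.an`,
`σ w ≠ 0`), so `(H, w) ↦ fderiv (F (H, ·)) w` is continuous there (`ContDiffAt.fderiv`). -/
theorem isOpen_goodH (C : X.Chart) {K : Set (Cn n)} (hK : IsCompact K) (hKB : K ⊆ C.B) {g : Cn (N + 1) → ℝ}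
    (hg : ∀ y, y ≠ 0 → ContDiffAt ℝ 2 g y) : IsOpen (GoodH C K g) := by
  rw [isOpen_iff_mem_nhds]
  intro H₀ hH₀
  refine hK.eventually_forall_of_forall_eventually (P := fun H w => g (C.σ w) + phi H (C.σ w) = 0 →
    fderiv ℝ (fun x => g (C.σ x) + phi H (C.σ x)) w ≠ 0) fun w hw => ?_
  have hσ : ContDiffAt ℝ 2 C.σ w := (C.an w (hKB hw)).contDiffAt.restrict_scalars ℝ
  have h0 : C.σ w ≠ 0 := (C.mem (hKB hw)).1
  have hF : ContDiffAt ℝ 2 (fun p : PM (N + 1) × Cn n => g (C.σ p.2) + phi p.1 (C.σ p.2)) (H₀, w) := by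
    have h1 : ContDiffAt ℝ 2 (fun p : PM (N + 1) × Cn n => C.σ p.2) (H₀, w) := hσ.comp (H₀, w) contDiffAt_snd
    have h2 := ContDiffAt.comp (f := fun p : PM (N + 1) × Cn n => (p.1, C.σ p.2)) (H₀, w) (contDiffAt_phi H₀ h0)
      (contDiffAt_fst.prodMk h1)
    have h3 := ContDiffAt.comp (f := fun p : PM (N + 1) × Cn n => C.σ p.2) (H₀, w) (hg _ h0) h1
    exact h3.add h2
  by_cases hz : g (C.σ w) + phi H₀ (C.σ w) = 0
  · have h2 : ContDiffAt ℝ 1 (fun p : PM (N + 1) × Cn n => fderiv ℝ (fun x => g (C.σ x) + phi p.1 (C.σ x)) p.2) (H₀, w) := by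
      refine ContDiffAt.fderiv (n := 2) (f := fun (p : PM (N + 1) × Cn n) x => g (C.σ x) + phi p.1 (C.σ x))
        (g := fun p => p.2) ?_ contDiffAt_snd (by norm_num)
      exact hF.comp ((H₀, w), w) (f := fun q : (PM (N + 1) × Cn n) × Cn n => (q.1.1, q.2))
        (contDiffAt_fst.fst.prodMk contDiffAt_snd)
    exact (h2.continuousAt.eventually_ne (hH₀ w hw hz)).mono fun p hp _ => hp
  · exact (hF.continuousAt.eventually_ne hz).mono fun p hp h => absurd h hp

/-- For `H₀` put `G w = ‖σ w‖² (g (σ w) + phi H₀ (σ w))`; with `L` of `exists_affine C.Λ` and `H = H₀ + L p`,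
`‖σ x‖² (g + phi H) (σ x) = G x + p.1 x + p.2` on `C.B` (`C.one`, `C.inv`); product rule; `dense_affine`. -/
theorem dense_goodH (C : X.Chart) {K : Set (Cn n)} (hKB : K ⊆ C.B) {g : Cn (N + 1) → ℝ}
    (hg : ∀ y, y ≠ 0 → ContDiffAt ℝ 2 g y) : Dense (GoodH C K g) := by
  intro H₀
  obtain ⟨L, hL, hL0, hLq⟩ := exists_affine C.Λ
  set G : Cn n → ℝ := fun x => ‖C.σ x‖ ^ 2 * (g (C.σ x) + phi H₀ (C.σ x)) with hG
  have hσ : ∀ w ∈ C.B, ContDiffAt ℝ 2 C.σ w := fun w hw => (C.an w hw).contDiffAt.restrict_scalars ℝ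
  have hn : ∀ w ∈ C.B, ContDiffAt ℝ 2 (fun x => ‖C.σ x‖ ^ 2) w := fun w hw =>
    (contDiff_norm_sq ℂ).contDiffAt.comp w (hσ w hw)
  have hF : ∀ H, ∀ w ∈ C.B, ContDiffAt ℝ 2 (fun x => g (C.σ x) + phi H (C.σ x)) w := fun H w hw =>
    ((hg _ (C.mem hw).1).comp w (hσ w hw)).add (((adm_phi X H).1 _ (C.mem hw).1).comp w (hσ w hw))
  have hD := dense_affine (G := G) (U := C.B) fun w hw => (hn w hw).mul (hF H₀ w hw)
  have hc : Continuous fun p => H₀ + L p := continuous_const.add hL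
  have h1 := map_mem_closure hc (hD 0) (t := GoodH C K g) (by
    intro p hp w hw hz hd
    have hwB := hKB hw
    have he : ∀ x ∈ C.B, ‖C.σ x‖ ^ 2 * (g (C.σ x) + phi (H₀ + L p) (C.σ x)) = G x + p.1 x + p.2 := by
      intro x hx
      have hx0 : ‖C.σ x‖ ≠ 0 := norm_ne_zero_iff.2 (C.mem hx).1
      have h2 : ‖C.σ x‖ ^ 2 * phi (L p) (C.σ x) = p.1 x + p.2 := by
        rw [phi, hLq p _ (C.one x hx), C.inv x hx]; field_simp
      rw [phi_add, hG]
      linarith
    refine hp w hwB (by rw [← he w hwB, hz, mul_zero]) ?_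
    have h3 : HasFDerivAt (fun x => G x + p.1 x + p.2) (fderiv ℝ G w + p.1) w :=
      ((((hn w hwB).mul (hF H₀ w hwB)).differentiableAt (by simp)).hasFDerivAt.add p.1.hasFDerivAt).add_const _
    have h4 := ((hn w hwB).differentiableAt (by simp)).hasFDerivAt.mul
      ((hF (H₀ + L p) w hwB).differentiableAt (by simp)).hasFDerivAt
    rw [hd, hz, smul_zero, zero_smul, add_zero] at h4
    refine h3.unique (h4.congr_of_eventuallyEq ?_)
    filter_upwards [C.isOpen.mem_nhds hwB] with x hx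
    exact (he x hx).symm)
  simpa [hL0] using h1

/-- No critical zero on `X`. -/
def Tr (X : Geo N n) (f : Cn (N + 1) → ℝ) : Prop := ∀ y ∈ X.Y, f y = 0 → ∃ v ∈ X.T y, fderiv ℝ f y v ≠ 0

/-- `f (t • σ x) = f (σ x)` on `C.B`; chain rule; `t • dσ e ∈ T (t • σ w)` (`fderiv_mem_T`). -/
theorem exists_tan_ne (C : X.Chart) {w : Cn n} (hw : w ∈ C.B) {f : Cn (N + 1) → ℝ} (hf : X.Adm f) {t : ℂ} (ht : t ≠ 0)
    (h : fderiv ℝ (fun x => f (C.σ x)) w ≠ 0) : ∃ v ∈ X.T (t • C.σ w), fderiv ℝ f (t • C.σ w) v ≠ 0 := by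
  by_contra hne
  push Not at hne
  apply h
  have hσ : DifferentiableAt ℂ (fun x => t • C.σ x) w := (C.an w hw).differentiableAt.const_smul t
  have hY : ∀ᶠ x in 𝓝 w, t • C.σ x ∈ X.Y := by
    filter_upwards [C.isOpen.mem_nhds hw] with x hx using X.smul_mem_Y (C.mem hx) ht
  have he : (fun x => f (C.σ x)) =ᶠ[𝓝 w] fun x => f (t • C.σ x) := by
    filter_upwards [C.isOpen.mem_nhds hw] with x hx using (hf.2 _ (C.mem hx) t ht).symm
  have h1 := ((hf.1 _ hY.self_of_nhds.1).differentiableAt (by simp)).hasFDerivAt.comp w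
    (hσ.hasFDerivAt.restrictScalars ℝ)
  rw [he.fderiv_eq]
  refine h1.fderiv.trans ?_
  ext e
  exact hne _ (X.fderiv_mem_T hσ hY e)

/-- `exists_chart_at`, closed balls `K_y ⊆ B`, `exists_atlas`; a finite intersection of open dense sets is dense, so it meets the
neighbourhood of `phi_small`. -/
theorem exists_small_trans {g : Cn (N + 1) → ℝ} (hg : X.Adm g) {β : ℝ} (hβ : 0 < β) :
    ∃ φ : Cn (N + 1) → ℝ, X.Adm φ ∧ (∀ y ∈ X.Y, |φ y| ≤ β ∧ ∀ v ∈ X.T y, |levi φ y v| ≤ β * om y v) ∧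
      Tr X fun y => g y + φ y := by
  classical
  choose C w t hw ht hy using fun y : X.Y => Geo.exists_chart_at y.2
  have hr : ∀ y : X.Y, ∃ r > 0, closedBall (w y) r ⊆ (C y).B := fun y =>
    Metric.nhds_basis_closedBall.mem_iff.1 ((C y).isOpen.mem_nhds (hw y))
  choose r hr0 hrB using hr
  obtain ⟨s, hs⟩ := Geo.exists_atlas C w r hr0 hw fun y => ⟨t y, ht y, hy y⟩
  have hD : Dense (⋂ y ∈ s, GoodH (C y) (closedBall (w y) (r y)) g) := by
    exact dense_biInter_of_isOpen (S := (s : Set X.Y))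
      (fun y _ => isOpen_goodH (C y) (isCompact_closedBall _ _) (hrB y) hg.1) s.countable_toSet
      fun y _ => dense_goodH (C y) (hrB y) hg.1
  obtain ⟨H, hH1, hH2⟩ := hD.inter_nhds_nonempty (phi_small X hβ)
  refine ⟨phi H, adm_phi X H, hH2, fun x hx hz => ?_⟩
  obtain ⟨y, hys, z, hz1, τ, hτ, rfl⟩ := hs x hx
  have hA : X.Adm fun y => g y + phi H y :=
    ⟨fun y hy => (hg.1 y hy).add ((adm_phi X H).1 y hy), fun y hy t ht => by simp only [hg.2 y hy t ht, phi_hom H y ht]⟩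
  refine exists_tan_ne (C y) hz1.2 hA hτ ?_
  refine (mem_iInter₂.1 hH1 y hys) z (ball_subset_closedBall hz1.1) ?_
  exact (hA.2 _ ((C y).mem hz1.2) τ hτ).symm.trans hz

/-- Quantitative transversality.  `IsCompact.eventually_forall_of_forall_eventually` on `Y ∩ sphere` with parameter `κ`: near a point with
`f y = 0` use `v_x = P x v` (`exists_local_proj`; `om` and `fderiv f` are continuous), near a point with `f y ≠ 0` one has `κ < |f x|`. -/
theorem Tr.quant {f : Cn (N + 1) → ℝ} (hf : X.Adm f) (h : Tr X f) : ∃ κ : ℝ, 0 < κ ∧ ∀ y ∈ X.Y ∩ sphere 0 1, |f y| ≤ κ →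
    ∃ v ∈ X.T y, κ * om y v < fderiv ℝ f y v ^ 2 := by
  have key := X.isCompact_Y1.eventually_forall_of_forall_eventually (x₀ := (0 : ℝ))
    (P := fun κ x => x ∈ X.Y → |f x| ≤ κ → ∃ v ∈ X.T x, κ * om x v < fderiv ℝ f x v ^ 2) (by
      intro y hy
      have hfy := hf.1 y hy.1.1
      by_cases h0 : f y = 0
      · obtain ⟨v, hv, hne⟩ := h y hy.1 h0
        obtain ⟨P, hP, hPe⟩ := X.exists_local_proj hy.1
        have hPv : P y v = v := (hPe.self_of_nhdsWithin hy.1).2 v hv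
        have hPc : ContinuousAt (fun p : ℝ × Cn (N + 1) => P p.2 v) (0, y) :=
          (ContinuousAt.comp (g := P) hP.continuousAt continuousAt_snd).clm_apply continuousAt_const
        have h1 : ContinuousAt (fun p : ℝ × Cn (N + 1) => p.1 * om p.2 (P p.2 v)) (0, y) := by
          refine continuousAt_fst.mul ?_
          unfold om
          exact (((hPc.norm.pow 2).mul (continuousAt_snd.norm.pow 2)).sub ((continuousAt_snd.inner hPc).norm.pow 2)).div
            (continuousAt_snd.norm.pow 4) (pow_ne_zero 4 (norm_ne_zero_iff.2 hy.1.1))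
        have h2 : ContinuousAt (fun p : ℝ × Cn (N + 1) => fderiv ℝ f p.2 (P p.2 v) ^ 2) (0, y) :=
          ((ContinuousAt.comp (g := fderiv ℝ f) (hfy.fderiv_right (m := 1) (by norm_num)).continuousAt
            continuousAt_snd).clm_apply hPc).pow 2
        have h3 := h1.eventually_lt h2 (by simp only [zero_mul, hPv]; positivity)
        have h4 : ∀ᶠ p : ℝ × Cn (N + 1) in 𝓝 (0, y), p.2 ∈ X.Y → P p.2 v ∈ X.T p.2 :=
          (continuousAt_snd.tendsto.eventually (eventually_nhdsWithin_iff.1 hPe)).mono fun p hp hY => (hp hY).1 v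
        filter_upwards [h3, h4] with p hp hp' hY _ using ⟨_, hp' hY, hp⟩
      · have h1 : ContinuousAt (fun p : ℝ × Cn (N + 1) => |f p.2|) (0, y) :=
          (ContinuousAt.comp (g := f) hfy.continuousAt continuousAt_snd).abs
        exact (continuousAt_fst.eventually_lt h1 (abs_pos.2 h0)).mono fun p hp _ h2 => absurd h2 (not_le.2 hp))
  have h2 : ∀ᶠ κ in 𝓝[>] (0 : ℝ), _ := mem_nhdsWithin_of_mem_nhds key
  obtain ⟨κ, hκ, hκ0⟩ := (h2.and self_mem_nhdsWithin).exists
  exact ⟨κ, hκ0, fun y hy => hκ y hy hy.1⟩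

end Crest.Agent.R269.D2
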