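import Crest.Agent.R269.D.D2Good
import Crest.Agent.R269.D.D2Trans

/-!
# Row 269, block D2 (owner helper64): regularised minima of supersolutions (statements FROZEN)
-/

set_option autoImplicit false
set_option linter.unusedSectionVars false
set_option linter.unusedVariables false

noncomputable section

namespace Crest.Agent.R269.D2

open Set Metric Filter Topology MeasureTheory Matrix
open Crest.AlgGeometry.ProjEmb
open scoped InnerProductSpace ContDiff

variable {N n : ℕ} {X : Geo N n}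

theorem adm_add {u v : Cn (N + 1) → ℝ} (hu : X.Adm u) (hv : X.Adm v) : X.Adm fun y => u y + v y := by
  exact ⟨fun y hy => (hu.1 y hy).add (hv.1 y hy), fun y hy t ht => by simp only [hu.2 y hy t ht, hv.2 y hy t ht]⟩

theorem adm_sub {u v : Cn (N + 1) → ℝ} (hu : X.Adm u) (hv : X.Adm v) : X.Adm fun y => u y - v y := by
  exact ⟨fun y hy => (hu.1 y hy).sub (hv.1 y hy), fun y hy t ht => by simp only [hu.2 y hy t ht, hv.2 y hy t ht]⟩

/-- `ψ_δ x = (x + √(δ² + x²)) / 2`. -/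
def psi (δ x : ℝ) : ℝ := (x + √(δ ^ 2 + x ^ 2)) / 2

theorem psi_spec {δ : ℝ} (hδ : 0 < δ) : ContDiff ℝ 2 (psi δ) ∧ ∀ x, max x 0 ≤ psi δ x ∧ psi δ x ≤ max x 0 + δ ∧
    0 ≤ deriv (psi δ) x ∧ deriv (psi δ) x ≤ 1 ∧ 0 ≤ deriv (deriv (psi δ)) x ∧ ∀ L : ℝ, 0 < L →
      (x ≤ -(L * δ) → deriv (psi δ) x ≤ 1 / L) ∧ (L * δ ≤ x → 1 - deriv (psi δ) x ≤ 1 / L) ∧
      (|x| ≤ L * δ → 1 / (2 * δ * (1 + L) ^ 3) ≤ deriv (deriv (psi δ)) x) := by
  have he : psi δ = fun x => (x / 2 + δ / 2) + xi (1 / 2) δ x := by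
    funext x; simp only [psi, xi]; ring
  have hx := contDiff_xi (1 / 2) hδ
  have hx2 : ContDiff ℝ 2 (xi (1 / 2) δ) := contDiff_infty.1 hx 2
  have hd1 : deriv (psi δ) = fun x => 1 / 2 + deriv (xi (1 / 2) δ) x := by
    funext x
    rw [he]
    have h1 : HasDerivAt (fun x : ℝ => x / 2 + δ / 2) (1 / 2) x := ((hasDerivAt_id x).div_const 2).add_const _
    exact (h1.add (hx2.differentiable (by simp) x).hasDerivAt).deriv
  have hd2 : ∀ x, deriv (deriv (psi δ)) x = 1 / 2 * δ ^ 2 / √(δ ^ 2 + x ^ 2) ^ 3 := by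
    intro x
    rw [hd1, deriv_const_add, deriv2_xi _ hδ]
  refine ⟨by rw [he]; exact ((contDiff_id.div_const 2).add contDiff_const).add hx2, fun x => ?_⟩
  set s := √(δ ^ 2 + x ^ 2) with hs
  have hs0 : 0 < s := Real.sqrt_pos.2 (by positivity)
  have hs1 : |x| ≤ s := Real.abs_le_sqrt (by nlinarith [sq_nonneg δ])
  have hs2 : s ≤ δ + |x| := by
    rw [hs, Real.sqrt_le_left (by positivity)]
    nlinarith [abs_nonneg x, sq_abs x]
  have hd1' : deriv (psi δ) x = (s + x) / (2 * s) := by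
    rw [hd1]; simp only [deriv_xi _ hδ, ← hs]; field_simp
  have hps : psi δ x = (x + s) / 2 := rfl
  have ha1 := le_abs_self x
  have ha2 := neg_abs_le x
  refine ⟨?_, ?_, ?_, ?_, ?_, fun L hL => ⟨fun h => ?_, fun h => ?_, fun h => ?_⟩⟩
  · rw [hps]; exact max_le (by linarith) (by linarith)
  · rw [hps]
    rcases le_total x 0 with h | h
    · rw [max_eq_right h]; rw [abs_of_nonpos h] at hs2; linarith
    · rw [max_eq_left h]; rw [abs_of_nonneg h] at hs2; linarith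
  · rw [hd1']; exact div_nonneg (by linarith) (by positivity)
  · rw [hd1', div_le_one (by positivity)]; linarith
  · rw [hd2]; positivity
  · have hLδ : 0 < L * δ := by positivity
    rw [abs_of_nonpos (by linarith)] at hs1 hs2
    rw [hd1', div_le_div_iff₀ (by positivity) hL]
    nlinarith
  · have hLδ : 0 < L * δ := by positivity
    rw [abs_of_nonneg (by linarith)] at hs1 hs2
    have : 1 - (s + x) / (2 * s) = (s - x) / (2 * s) := by field_simp; ring
    rw [hd1', this, div_le_div_iff₀ (by positivity) hL]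
    nlinarith
  · rw [hd2, ← hs, div_le_div_iff₀ (by positivity) (by positivity)]
    have h1 : s ≤ δ * (1 + L) := by linarith
    have h2 : s ^ 3 ≤ (δ * (1 + L)) ^ 3 := pow_le_pow_left₀ hs0.le h1 3
    calc 1 * s ^ 3 ≤ (δ * (1 + L)) ^ 3 := by linarith
      _ = 1 / 2 * δ ^ 2 * (2 * δ * (1 + L) ^ 3) := by ring

/-- Each `uᵢ` is a strict supersolution where it is the smaller one. -/
def Pair (X : Geo N n) (a b : ℝ) (u₁ u₂ : Cn (N + 1) → ℝ) : Prop :=
  X.Adm u₁ ∧ X.Adm u₂ ∧ (∀ y ∈ X.Y, u₁ y ≤ u₂ y → ¬ X.Good a b u₁ y (Real.exp (u₁ y))) ∧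
    ∀ y ∈ X.Y, u₂ y ≤ u₁ y → ¬ X.Good a b u₂ y (Real.exp (u₂ y))

theorem regmin_trans {a b : ℝ} {u₁ u₂ : Cn (N + 1) → ℝ} (h : Pair X a b u₁ u₂) (ht : Tr X fun y => u₁ y - u₂ y) :
    ∃ u, X.Sup a b u ∧ ∀ y ∈ X.Y, u y ≤ u₁ y ∧ u y ≤ u₂ y := by
  obtain ⟨h1, h2, h3, h4⟩ := h
  have hf : X.Adm fun y => u₁ y - u₂ y := adm_sub h1 h2
  obtain ⟨β₁, hβ₁, hm₁⟩ := margin (a := a) (b := b) h1 hf fun y hy hle => h3 y hy (by linarith)
  obtain ⟨β₂, hβ₂, hm₂⟩ := margin (a := a) (b := b) h2 (adm_sub h2 h1) fun y hy hle => h4 y hy (by linarith)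
  obtain ⟨κ, hκ, hq⟩ := ht.quant hf
  obtain ⟨C₁, hC₁, hc₁⟩ := X.eta_abs_le a b h1
  obtain ⟨C₂, hC₂, hc₂⟩ := X.eta_abs_le a b h2
  set β := min β₁ β₂ with hβd
  have hβ : 0 < β := lt_min hβ₁ hβ₂
  have hβ1 : β ≤ β₁ := min_le_left _ _
  have hβ2 : β ≤ β₂ := min_le_right _ _
  set C := C₁ + C₂ + 1 with hC
  have hC0 : 0 < C := by positivity
  set L := C / β with hL
  have hL0 : 0 < L := by positivity
  obtain ⟨δ, hδ, hδβ, hδκ, hδC⟩ : ∃ δ : ℝ, 0 < δ ∧ δ ≤ β ∧ L * δ ≤ κ ∧ 8 * δ * (1 + L) ^ 3 * C ≤ κ := by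
    refine ⟨min β (min (κ / L) (κ / (8 * (1 + L) ^ 3 * C))), by positivity, min_le_left _ _, ?_, ?_⟩
    · have : min β (min (κ / L) (κ / (8 * (1 + L) ^ 3 * C))) ≤ κ / L := (min_le_right _ _).trans (min_le_left _ _)
      rw [le_div_iff₀ hL0] at this; linarith
    · have : min β (min (κ / L) (κ / (8 * (1 + L) ^ 3 * C))) ≤ κ / (8 * (1 + L) ^ 3 * C) :=
        (min_le_right _ _).trans (min_le_right _ _)
      rw [le_div_iff₀ (by positivity)] at this; linarith
  obtain ⟨hψ, hψs⟩ := psi_spec hδ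
  have hc : ∀ y, y ≠ 0 → ContDiffAt ℝ 2 (fun y => psi δ (u₁ y - u₂ y)) y := fun y hy =>
    hψ.contDiffAt.comp y (hf.1 y hy)
  have hA : X.Adm fun y => u₁ y - psi δ (u₁ y - u₂ y) :=
    ⟨fun y hy => (h1.1 y hy).sub (hc y hy), fun y hy t ht => by simp only [h1.2 y hy t ht, h2.2 y hy t ht]⟩
  refine ⟨_, sup_of_unit hA fun y hy => ?_, fun y hy => ?_⟩
  swap
  · have := (hψs (u₁ y - u₂ y)).1
    have h5 := le_max_left (u₁ y - u₂ y) 0
    have h6 := le_max_right (u₁ y - u₂ y) 0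
    constructor <;> linarith
  obtain ⟨hy, hy1⟩ := hy
  obtain ⟨p1, p2, p3, p4, p5, p6⟩ := hψs (u₁ y - u₂ y)
  obtain ⟨p7, p8, p9⟩ := p6 L hL0
  set s := deriv (psi δ) (u₁ y - u₂ y) with hs
  set s2 := deriv (deriv (psi δ)) (u₁ y - u₂ y) with hs2
  have hE : ∀ v, X.eta a b (fun y => u₁ y - psi δ (u₁ y - u₂ y)) y v ≤
      (1 - s) * X.eta a b u₁ y v + s * X.eta a b u₂ y v - s2 * (fderiv ℝ (fun y => u₁ y - u₂ y) y v ^ 2 / 4) := by
    intro v
    simp only [Geo.eta]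
    rw [levi_sub (h1.1 y hy.1) (hc y hy.1), levi_comp_real (f := fun y => u₁ y - u₂ y) hψ.contDiffAt (hf.1 y hy.1),
      levi_sub (h1.1 y hy.1) (h2.1 y hy.1), ← hs, ← hs2]
    nlinarith [mul_nonneg p5 (sq_nonneg (fderiv ℝ (fun y => u₁ y - u₂ y) y (Complex.I • v)))]
  have hLβ : 1 / L * C = β := by rw [hL]; field_simp
  intro hG
  by_cases c1 : u₁ y - u₂ y ≤ -(L * δ)
  · have hLδ : 0 < L * δ := by positivity
    refine hm₁ y hy (by linarith) (good_mono hG (fun v hv => ?_) (Real.exp_le_exp.2 ?_))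
    · rw [eta_add_b]
      have e1 := abs_le.1 (hc₁ y hy v hv)
      have e2 := abs_le.1 (hc₂ y hy v hv)
      have e3 := om_nonneg y v
      have e4 := hE v
      have e5 := mul_nonneg p5 (sq_nonneg (fderiv ℝ (fun y => u₁ y - u₂ y) y v))
      have e6 : X.eta a b u₂ y v - X.eta a b u₁ y v ≤ C * om y v := by rw [hC]; nlinarith
      have e7 : s * (X.eta a b u₂ y v - X.eta a b u₁ y v) ≤ s * (C * om y v) := mul_le_mul_of_nonneg_left e6 p3
      have e8 : s * (C * om y v) ≤ 1 / L * (C * om y v) := mul_le_mul_of_nonneg_right (p7 c1) (by positivity)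
      have e9 : 1 / L * (C * om y v) ≤ β₁ * om y v := by
        rw [← mul_assoc, hLβ]; exact mul_le_mul_of_nonneg_right hβ1 e3
      linarith
    · rw [max_eq_right (by linarith)] at p2
      linarith
  by_cases c2 : L * δ ≤ u₁ y - u₂ y
  · have hLδ : 0 < L * δ := by positivity
    refine hm₂ y hy (by linarith) (good_mono hG (fun v hv => ?_) (Real.exp_le_exp.2 ?_))
    · rw [eta_add_b]
      have e1 := abs_le.1 (hc₁ y hy v hv)
      have e2 := abs_le.1 (hc₂ y hy v hv)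
      have e3 := om_nonneg y v
      have e4 := hE v
      have e5 := mul_nonneg p5 (sq_nonneg (fderiv ℝ (fun y => u₁ y - u₂ y) y v))
      have e6 : X.eta a b u₁ y v - X.eta a b u₂ y v ≤ C * om y v := by rw [hC]; nlinarith
      have e7 : (1 - s) * (X.eta a b u₁ y v - X.eta a b u₂ y v) ≤ (1 - s) * (C * om y v) :=
        mul_le_mul_of_nonneg_left e6 (by linarith)
      have e8 : (1 - s) * (C * om y v) ≤ 1 / L * (C * om y v) := mul_le_mul_of_nonneg_right (p8 c2) (by positivity)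
      have e9 : 1 / L * (C * om y v) ≤ β₂ * om y v := by
        rw [← mul_assoc, hLβ]; exact mul_le_mul_of_nonneg_right hβ2 e3
      linarith
    · rw [max_eq_left (by linarith)] at p2
      linarith
  · push Not at c1 c2
    have habs : |u₁ y - u₂ y| ≤ L * δ := abs_le.2 ⟨c1.le, c2.le⟩
    obtain ⟨v, hv, hlt⟩ := hq y ⟨hy, hy1⟩ (habs.trans hδκ)
    refine not_good_of_neg hv ((hE v).trans_lt ?_) hG
    have e1 := abs_le.1 (hc₁ y hy v hv)
    have e2 := abs_le.1 (hc₂ y hy v hv)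
    have e3 := om_nonneg y v
    set D := fderiv ℝ (fun y => u₁ y - u₂ y) y v ^ 2 with hD
    set m := 1 / (2 * δ * (1 + L) ^ 3) with hm
    have hm0 : 0 < m := by positivity
    have e4 : m * (D / 4) ≤ s2 * (D / 4) := mul_le_mul_of_nonneg_right (p9 habs) (by positivity)
    have e5 : m * (κ * om y v / 4) < m * (D / 4) := mul_lt_mul_of_pos_left (by linarith) hm0
    have e6 : C ≤ m * κ / 4 := by
      rw [hm, le_div_iff₀ (by norm_num), one_div, ← div_eq_inv_mul, le_div_iff₀ (by positivity)]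
      linarith
    have e7 : C * om y v ≤ m * κ / 4 * om y v := mul_le_mul_of_nonneg_right e6 e3
    have e8 : (1 - s) * X.eta a b u₁ y v ≤ (1 - s) * (C * om y v) :=
      mul_le_mul_of_nonneg_left (by rw [hC]; nlinarith) (by linarith)
    have e9 : s * X.eta a b u₂ y v ≤ s * (C * om y v) := mul_le_mul_of_nonneg_left (by rw [hC]; nlinarith) p3
    linarith

theorem regmin {a b : ℝ} {u₁ u₂ : Cn (N + 1) → ℝ} (h : Pair X a b u₁ u₂) {ε : ℝ} (hε : 0 < ε) :
    ∃ u, X.Sup a b u ∧ ∀ y ∈ X.Y, u y ≤ u₁ y + ε ∧ u y ≤ u₂ y := by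
  obtain ⟨h1, h2, h3, h4⟩ := h
  obtain ⟨β₁, hβ₁, hm₁⟩ := margin (a := a) (b := b) h1 (adm_sub h1 h2) fun y hy hle => h3 y hy (by linarith)
  obtain ⟨β₂, hβ₂, hm₂⟩ := margin (a := a) (b := b) h2 (adm_sub h2 h1) fun y hy hle => h4 y hy (by linarith)
  obtain ⟨φ, hφ, hs, ht⟩ := exists_small_trans (adm_sub h1 h2) (β := min ε (min β₁ β₂)) (by positivity)
  have b0 : min ε (min β₁ β₂) ≤ ε := min_le_left _ _
  have b1 : min ε (min β₁ β₂) ≤ β₁ := (min_le_right _ _).trans (min_le_left _ _)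
  have b2 : min ε (min β₁ β₂) ≤ β₂ := (min_le_right _ _).trans (min_le_right _ _)
  have hP : Pair X a b (fun y => u₁ y + φ y) u₂ := by
    refine ⟨adm_add h1 hφ, h2, fun y hy hle hG => ?_, fun y hy hle hG => ?_⟩
    · have e1 := abs_le.1 (hs y hy).1
      refine hm₁ y hy (by linarith) (good_mono hG (fun v hv => ?_) (Real.exp_le_exp.2 (by linarith)))
      rw [eta_add_b]
      simp only [Geo.eta]
      rw [levi_add (h1.1 y hy.1) (hφ.1 y hy.1)]
      have e2 := (abs_le.1 ((hs y hy).2 v hv)).2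
      have e3 := mul_le_mul_of_nonneg_right b1 (om_nonneg y v)
      linarith
    · have e1 := abs_le.1 (hs y hy).1
      refine hm₂ y hy (by linarith) (good_mono hG (fun v hv => ?_) (Real.exp_le_exp.2 (by linarith)))
      rw [eta_add_b]
      have e3 := mul_nonneg hβ₂.le (om_nonneg y v)
      linarith
  have ht' : Tr X fun y => u₁ y + φ y - u₂ y := by
    have : (fun y => u₁ y + φ y - u₂ y) = fun y => u₁ y - u₂ y + φ y := funext fun y => by ring
    rw [this]; exact ht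
  obtain ⟨u, hu, hle⟩ := regmin_trans hP ht'
  refine ⟨u, hu, fun y hy => ⟨?_, (hle y hy).2⟩⟩
  have e1 := abs_le.1 (hs y hy).1
  have := (hle y hy).1
  linarith

end Crest.Agent.R269.D2
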