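import Crest.Agent.R269.B.Jensen
import Crest.Agent.R269.A.ThB

/-!
# Row 269, block D: supersolutions (statements FROZEN; recipe in Blueprint.lean)
-/

set_option autoImplicit false
set_option linter.unusedSectionVars false
set_option linter.unusedVariables false

noncomputable section

namespace Crest.Agent.R269

open Set Metric Filter Topology MeasureTheory Matrix
open Crest.AlgGeometry.ProjEmb
open scoped InnerProductSpace ContDiff

namespace Geo

variable {N n : ℕ} (X : Geo N n)

/-- Strict `C²` supersolutions of `det (η / ω) = e ^ u`. -/
def Sup (a b : ℝ) (u : Cn (N + 1) → ℝ) : Prop := X.Adm u ∧ ∀ y ∈ X.Y, ¬ X.Good a b u y (Real.exp (u y))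

end Geo

end Crest.Agent.R269
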